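import Vale.Agent.P331.Defs

/-!
# P331: greedy online rules
-/

namespace Vale.Agent.P331

open Finset

variable {E : Type*} [Fintype E] [DecidableEq E] {α : Type*} [DecidableEq α]

open Classical in
/-- One step of a greedy rule. -/
noncomputable def step (ok : Finset (E × α) → E × α → Prop) (A : Finset (E × α)) (x : E × α) :
    Finset (E × α) :=
  if ok A x then insert x A else A

/-- The state of a greedy rule after the arrivals `l`. -/
noncomputable def greedy (ok : Finset (E × α) → E × α → Prop) (l : List (E × α)) :
    Finset (E × α) :=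
  l.foldl (step ok) ∅

open Classical in
/-- The decisions of a greedy rule acting on encoded values. -/
noncomputable def greedyDec (enc : ℝ → α) (ok : Finset (E × α) → E × α → Prop)
    (hist : List (E × ℝ)) (x : E × ℝ) : Bool :=
  decide (ok (greedy ok (hist.map fun y => (y.1, enc y.2))) (x.1, enc x.2))

open Classical in
lemma runAux_greedy (enc : ℝ → α) (ok : Finset (E × α) → E × α → Prop) :
    ∀ (l hist : List (E × ℝ)),
      runAux (greedyDec enc ok) hist l ∪
          (greedy ok (hist.map fun y => (y.1, enc y.2))).image Prod.fst =
        (greedy ok ((hist ++ l).map fun y => (y.1, enc y.2))).image Prod.fst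
  | [], hist => by simp [runAux]
  | x :: l, hist => by
    have hrec := runAux_greedy enc ok l (hist ++ [x])
    have hstep : greedy ok ((hist ++ [x]).map fun y => (y.1, enc y.2)) =
        step ok (greedy ok (hist.map fun y => (y.1, enc y.2))) (x.1, enc x.2) := by
      simp [greedy, List.foldl_append]
    rw [List.append_assoc, List.singleton_append, hstep] at hrec
    rw [← hrec, runAux, greedyDec, step]
    by_cases h : ok (greedy ok (hist.map fun y => (y.1, enc y.2))) (x.1, enc x.2)
    · simp only [h, decide_true, ↓reduceIte, image_insert]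
      ext a
      simp only [mem_union, mem_singleton, mem_insert]
      tauto
    · simp [h]

open Classical in
lemma accepted_greedy (enc : ℝ → α) (ok : Finset (E × α) → E × α → Prop)
    (σ : Fin (Fintype.card E) ≃ E) (V : E → ℝ) :
    accepted (greedyDec enc ok) σ V =
      (greedy ok ((List.ofFn σ).map fun e => (e, enc (V e)))).image Prod.fst := by
  have := runAux_greedy enc ok ((List.ofFn σ).map fun e => (e, V e)) []
  simp only [List.map_nil, List.nil_append, List.map_map] at this
  rw [accepted]
  simpa [greedy, Function.comp_def] using this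

lemma mem_orderList (σ : Fin (Fintype.card E) ≃ E) (e : E) : e ∈ List.ofFn σ := by
  rw [List.mem_ofFn]
  exact ⟨σ.symm e, by simp⟩

section spec

variable {ok : Finset (E × α) → E × α → Prop}

open Classical in
lemma foldl_step_inv {Inv : Finset (E × α) → Prop} :
    ∀ (l : List (E × α)) (A : Finset (E × α)), Inv A →
      (∀ B, ∀ x ∈ l, Inv B → ok B x → Inv (insert x B)) → Inv (l.foldl (step ok) A)
  | [], _, hA, _ => hA
  | x :: l, A, hA, h => by
    refine foldl_step_inv l _ ?_ (fun B y hy => h B y (List.mem_cons_of_mem _ hy))
    unfold step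
    split_ifs with hx
    · exact h A x List.mem_cons_self hA hx
    · exact hA

open Classical in
lemma greedy_inv {Inv : Finset (E × α) → Prop} (l : List (E × α)) (h0 : Inv ∅)
    (h : ∀ B, ∀ x ∈ l, Inv B → ok B x → Inv (insert x B)) : Inv (greedy ok l) :=
  foldl_step_inv l ∅ h0 h

lemma subset_step (A : Finset (E × α)) (x : E × α) : A ⊆ step ok A x := by
  intro a ha
  unfold step
  split_ifs <;> simp [ha]

lemma subset_foldl_step : ∀ (l : List (E × α)) (A : Finset (E × α)), A ⊆ l.foldl (step ok) A
  | [], _ => by simp
  | x :: l, A => (subset_step A x).trans (subset_foldl_step l (step ok A x))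

lemma greedy_mem {x : E × α} {l : List (E × α)} (hx : x ∈ greedy ok l) : x ∈ l := by
  classical
  refine greedy_inv (Inv := fun A => ∀ y ∈ A, y ∈ l) l (by simp) ?_ x hx
  intro B y hy hB _ z hz
  rcases mem_insert.1 hz with rfl | hz
  · exact hy
  · exact hB z hz

lemma foldl_step_spec : ∀ (l : List (E × α)) (A : Finset (E × α)), ∀ x ∈ l,
    x ∈ l.foldl (step ok) A ∨ ∃ B ⊆ l.foldl (step ok) A, ¬ ok B x
  | [], _, x, hx => by simp at hx
  | y :: l, A, x, hx => by
    classical
    rcases List.mem_cons.1 hx with rfl | hx
    · by_cases h : ok A x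
      · left
        refine subset_foldl_step l (step ok A x) ?_
        simp [step, h]
      · exact Or.inr ⟨A, (subset_step A x).trans (subset_foldl_step l _), h⟩
    · exact foldl_step_spec l _ x hx

lemma greedy_spec {x : E × α} {l : List (E × α)} (hx : x ∈ l) :
    x ∈ greedy ok l ∨ ∃ B ⊆ greedy ok l, ¬ ok B x :=
  foldl_step_spec l ∅ x hx

end spec

end Vale.Agent.P331
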