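import Vale.Agent.P331.Rank
import Vale.Agent.P331.Greedy

/-!
# P331: block rules on level data

A block rule has parameters `lo`, `hi`, a shift `s` and the period `hi + 12`. The block of a
level `v` is the base level `a` congruent to `s` with `a + lo ≤ v < a + lo + period`. An element of
level `v < a + hi` is a candidate if it is spanned at level `a`, and the rule keeps the accepted
candidates of every block independent over the flat of level `a + period`.
-/

namespace Vale.Agent.P331

open Finset

variable {E : Type*} [Fintype E] [DecidableEq E]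

/-- Levels; `⊥` stands for nonpositive values. -/
abbrev Lv := WithBot ℤ

/-- The block of a level. -/
def blk (lo hi s v : ℤ) : ℤ := v - lo - (v - lo - s) % (hi + 12)

/-- Block rule for given flats `C`. -/
def okBlock (M : Matroid E) (C : ℤ → Set E) (low top lo hi s : ℤ) (A : Finset (E × Lv))
    (x : E × Lv) : Prop :=
  ∃ v : ℤ, x.2 = v ∧ low ≤ v ∧ v ≤ top ∧ v < blk lo hi s v + hi ∧ x.1 ∈ C (blk lo hi s v) ∧
    x.1 ∉ M.closure (C (blk lo hi s v + (hi + 12)) ∪
      {f | ∃ w : ℤ, (f, (w : Lv)) ∈ A ∧ blk lo hi s w = blk lo hi s v})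

variable (C : ℤ → Set E) (low top lo hi s : ℤ) (lV : E → Lv)

/-- The level as an integer. -/
def lev (e : E) : ℤ := (lV e).unbotD 0

/-- The block of an element. -/
def bl (e : E) : ℤ := blk lo hi s (lev lV e)

/-- Candidates. -/
def IsCand (e : E) : Prop :=
  lV e ≠ ⊥ ∧ low ≤ lev lV e ∧ lev lV e ≤ top ∧ lev lV e < bl lo hi s lV e + hi ∧
    e ∈ C (bl lo hi s lV e)

variable {C low top lo hi s lV} {M : Matroid E}

lemma blk_le (hhi : 0 ≤ hi) (v : ℤ) :
    blk lo hi s v + lo ≤ v ∧ v < blk lo hi s v + lo + (hi + 12) := by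
  have h1 := Int.emod_nonneg (v - lo - s) (show hi + 12 ≠ 0 by omega)
  have h2 := Int.emod_lt_of_pos (v - lo - s) (show 0 < hi + 12 by omega)
  unfold blk
  omega

lemma blk_dvd (v : ℤ) : hi + 12 ∣ blk lo hi s v - s := by
  have h : blk lo hi s v - s = (v - lo - s) - (v - lo - s) % (hi + 12) := by
    unfold blk; ring
  rw [h]
  exact Int.dvd_self_sub_of_emod_eq rfl

lemma blk_eq {a v : ℤ} (hhi : 0 ≤ hi) (h : hi + 12 ∣ a - s) (h1 : a + lo ≤ v)
    (h2 : v < a + lo + (hi + 12)) : blk lo hi s v = a := by
  obtain ⟨k, hk⟩ := h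
  have : (v - lo - s) % (hi + 12) = v - lo - a := by
    have e : v - lo - s = (v - lo - a) + (hi + 12) * k := by rw [← hk]; ring
    rw [e, Int.add_mul_emod_self_left]
    exact Int.emod_eq_of_lt (by omega) (by omega)
  unfold blk
  omega

lemma blk_gap (hhi : 0 ≤ hi) {v w : ℤ} (h : blk lo hi s v < blk lo hi s w) :
    blk lo hi s v + (hi + 12) ≤ blk lo hi s w := by
  have h1 : hi + 12 ∣ blk lo hi s w - blk lo hi s v := by
    have := dvd_sub (blk_dvd (lo := lo) (hi := hi) (s := s) w)
      (blk_dvd (lo := lo) (hi := hi) (s := s) v)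
    simpa using this
  have := Int.le_of_dvd (by omega) h1
  omega

/-- The set accepted by a block rule. -/
noncomputable def blockSet (M : Matroid E) (C : ℤ → Set E) (low top lo hi s : ℤ) (lV : E → Lv)
    (σ : Fin (Fintype.card E) ≃ E) : Finset E :=
  (greedy (okBlock M C low top lo hi s) ((List.ofFn σ).map fun e => (e, lV e))).image Prod.fst

open Classical in
lemma block_spec (hE : M.E = Set.univ) (σ : Fin (Fintype.card E) ≃ E) :
    (∀ e ∈ blockSet M C low top lo hi s lV σ, IsCand C low top lo hi s lV e) ∧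
    (∀ a, IndepOver M (C (a + (hi + 12)))
      (((blockSet M C low top lo hi s lV σ).filter fun f => bl lo hi s lV f = a : Finset E) :
        Set E)) ∧
    (∀ e, IsCand C low top lo hi s lV e →
      e ∈ M.closure (C (bl lo hi s lV e + (hi + 12)) ∪
        (((blockSet M C low top lo hi s lV σ).filter fun f => bl lo hi s lV f = bl lo hi s lV e :
          Finset E) : Set E))) := by
  set l := (List.ofFn σ).map fun e => (e, lV e) with hl
  have hmem : ∀ x ∈ l, x.2 = lV x.1 := by
    intro x hx
    simp only [hl, List.mem_map] at hx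
    obtain ⟨e, _, rfl⟩ := hx
    rfl
  have hset : ∀ B : Finset (E × Lv), (∀ x ∈ B, x.2 = lV x.1 ∧ lV x.1 ≠ ⊥) → ∀ a,
      {f | ∃ w : ℤ, (f, (w : Lv)) ∈ B ∧ blk lo hi s w = a} =
        (((B.image Prod.fst).filter fun f => bl lo hi s lV f = a : Finset E) : Set E) := by
    intro B hB a
    ext f
    simp only [Set.mem_setOf_eq, coe_filter, mem_image]
    constructor
    · rintro ⟨w, hw, ha⟩
      have := (hB _ hw).1
      simp only at this
      refine ⟨⟨_, hw, rfl⟩, ?_⟩
      simp [bl, lev, ← this, ha]
    · rintro ⟨⟨⟨f', l'⟩, hx, rfl⟩, ha⟩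
      obtain ⟨h1, h2⟩ := hB _ hx
      obtain ⟨w, hw⟩ := WithBot.ne_bot_iff_exists.1 h2
      simp only at h1 hw
      refine ⟨w, ?_, ?_⟩
      · rw [hw, ← h1]; exact hx
      · simpa [bl, lev, ← hw] using ha
  have hok : ∀ B : Finset (E × Lv), (∀ x ∈ B, x.2 = lV x.1 ∧ lV x.1 ≠ ⊥) → ∀ e,
      (okBlock M C low top lo hi s B (e, lV e) ↔ IsCand C low top lo hi s lV e ∧
        e ∉ M.closure (C (bl lo hi s lV e + (hi + 12)) ∪
          (((B.image Prod.fst).filter fun f => bl lo hi s lV f = bl lo hi s lV e : Finset E) :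
            Set E))) := by
    intro B hB e
    rw [← hset B hB]
    constructor
    · rintro ⟨v, hv, h1, h2, h3, h4, h5⟩
      simp only at hv h4 h5
      simp only [IsCand, bl, lev, hv, WithBot.unbotD_coe, ne_eq, WithBot.coe_ne_bot,
        not_false_eq_true, true_and]
      exact ⟨⟨h1, h2, h3, h4⟩, h5⟩
    · rintro ⟨⟨h0, h1, h2, h3, h4⟩, h5⟩
      obtain ⟨v, hv⟩ := WithBot.ne_bot_iff_exists.1 h0
      simp only [bl, lev, ← hv, WithBot.unbotD_coe] at h1 h2 h3 h4 h5
      exact ⟨v, hv.symm, h1, h2, h3, h4, h5⟩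
  set Inv : Finset (E × Lv) → Prop := fun B =>
    (∀ x ∈ B, x.2 = lV x.1 ∧ IsCand C low top lo hi s lV x.1) ∧
      ∀ a, IndepOver M (C (a + (hi + 12)))
        (((B.image Prod.fst).filter fun f => bl lo hi s lV f = a : Finset E) : Set E)
  have hInv : Inv (greedy (okBlock M C low top lo hi s) l) := by
    refine greedy_inv l ⟨by simp, fun a => by simpa using indepOver_empty M _⟩ ?_
    rintro B ⟨e, le⟩ hx ⟨hB, hover⟩ hokx
    obtain rfl : le = lV e := hmem _ hx
    rw [hok B (fun x hx => ⟨(hB x hx).1, (hB x hx).2.1⟩)] at hokx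
    refine ⟨?_, fun a => ?_⟩
    · intro y hy
      rcases mem_insert.1 hy with rfl | hy
      · exact ⟨rfl, hokx.1⟩
      · exact hB y hy
    · rw [image_insert, filter_insert]
      split_ifs with ha
      · simp only at ha
        subst ha
        rw [coe_insert]
        exact (hover _).insert hE hokx.2
      · exact hover a
  obtain ⟨hB, hover⟩ := hInv
  refine ⟨?_, hover, fun e he => ?_⟩
  · intro e he
    obtain ⟨x, hx, rfl⟩ := mem_image.1 he
    exact (hB x hx).2
  · have hel : (e, lV e) ∈ l := List.mem_map.2 ⟨e, mem_orderList σ e, rfl⟩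
    rcases greedy_spec (ok := okBlock M C low top lo hi s) hel with h | ⟨B, hBsub, hnok⟩
    · refine subset_closure' hE _ (Or.inr ?_)
      simp only [coe_filter, Set.mem_setOf_eq, and_true]
      exact mem_image.2 ⟨_, h, rfl⟩
    · rw [hok B (fun x hx => ⟨(hB x (hBsub hx)).1, (hB x (hBsub hx)).2.1⟩)] at hnok
      have hcl := not_not.1 fun h => hnok ⟨he, h⟩
      refine M.closure_subset_closure ?_ hcl
      refine Set.union_subset_union_right _ ?_
      exact_mod_cast filter_subset_filter _ (image_subset_image hBsub)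

open Classical in
lemma blockSet_indep (hE : M.E = Set.univ) (hhi : 0 ≤ hi) (hC : ∀ a b, a ≤ b → C b ⊆ C a)
    (σ : Fin (Fintype.card E) ≃ E) :
    M.Indep (blockSet M C low top lo hi s lV σ : Set E) := by
  obtain ⟨hcand, hover, -⟩ := block_spec (C := C) (low := low) (top := top) (lo := lo) (hi := hi)
    (s := s) (lV := lV) hE σ
  set A := blockSet M C low top lo hi s lV σ
  have key : ∀ T : Finset ℤ, (∀ a ∈ T, ∃ f ∈ A, bl lo hi s lV f = a) →
      M.Indep ((A.filter fun f => bl lo hi s lV f ∈ T : Finset E) : Set E) := by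
    intro T
    induction T using Finset.induction_on_min with
    | empty => simp
    | insert a T hlt ih =>
      intro hT
      have ih' := ih fun b hb => hT b (by simp [hb])
      have hsub : ((A.filter fun f => bl lo hi s lV f ∈ T : Finset E) : Set E) ⊆
          C (a + (hi + 12)) := by
        intro f hf
        simp only [coe_filter, Set.mem_setOf_eq] at hf
        obtain ⟨g, hg, hga⟩ := hT a (by simp)
        have hgap : a + (hi + 12) ≤ bl lo hi s lV f := by
          have := hlt _ hf.2
          rw [← hga] at this ⊢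
          exact blk_gap hhi this
        exact hC _ _ hgap (hcand f hf.1).2.2.2.2
      have := (hover a).union_indep ih' hsub
      convert this using 1
      rw [← coe_union, coe_inj]
      ext f
      simp only [mem_filter, mem_insert, mem_union]
      tauto
  have := key (A.image fun f => bl lo hi s lV f) (fun a ha => by simpa using ha)
  rwa [filter_true_of_mem (fun f hf => mem_image.2 ⟨f, hf, rfl⟩)] at this

end Vale.Agent.P331
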