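import Mathlib

/-!
# P331: online rules with one sample per element, against the almighty adversary
-/

namespace Vale.Agent.P331

open Finset

variable {E : Type*} [Fintype E] [DecidableEq E]

/-- Decisions of an online rule: `dec hist x` is the decision on the current arrival `x` (element
and value) after the arrivals in `hist` (in order of arrival). The result is the accepted set. -/
def runAux (dec : List (E × ℝ) → E × ℝ → Bool) : List (E × ℝ) → List (E × ℝ) → Finset E
  | _, [] => ∅
  | hist, x :: rest =>
      (if dec hist x then {x.1} else ∅) ∪ runAux dec (hist ++ [x]) rest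

/-- The set accepted when the elements arrive in the order `σ` with values `V`. -/
def accepted (dec : List (E × ℝ) → E × ℝ → Bool)
    (σ : Fin (Fintype.card E) ≃ E) (V : E → ℝ) : Finset E :=
  runAux dec [] ((List.ofFn σ).map fun e => (e, V e))

open Classical in
/-- The maximum weight of an independent set. -/
noncomputable def opt (M : Matroid E) (v : E → ℝ) : ℝ :=
  (univ.filter fun I : Finset E => M.Indep (I : Set E)).sup'
    ⟨∅, by simp⟩ (fun I => ∑ e ∈ I, v e)

/-- The joint law of (samples, values). -/
noncomputable def jointLaw (D : E → MeasureTheory.Measure ℝ) :
    MeasureTheory.Measure ((E → ℝ) × (E → ℝ)) :=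
  (MeasureTheory.Measure.pi D).prod (MeasureTheory.Measure.pi D)

end Vale.Agent.P331
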