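import Vale.Agent.P331.Rank
import Vale.Agent.P331.Defs

/-!
# P331: dyadic levels, optimum and layers
-/

namespace Vale.Agent.P331

open Finset

variable {E : Type*} [Fintype E] [DecidableEq E] {M : Matroid E}

/-- The level of a value. -/
noncomputable def lvl (w : ℝ) : WithBot ℤ := if 0 < w then (Int.log 2 w : ℤ) else ⊥

lemma coe_le_lvl {t : ℤ} {w : ℝ} : (t : WithBot ℤ) ≤ lvl w ↔ (2 : ℝ) ^ t ≤ w := by
  unfold lvl
  split_ifs with h
  · rw [WithBot.coe_le_coe]
    have := Int.zpow_le_iff_le_log (R := ℝ) (b := 2) (x := t) one_lt_two h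
    exact_mod_cast this.symm
  · simp only [le_bot_iff, WithBot.coe_ne_bot, false_iff, not_le]
    exact lt_of_le_of_lt (not_lt.1 h) (zpow_pos two_pos t)

lemma lvl_eq_bot {w : ℝ} : lvl w = ⊥ ↔ w ≤ 0 := by
  unfold lvl
  split_ifs with h <;> simp [h, le_of_not_gt, not_le.2]

lemma lvl_bounds {w : ℝ} {v : ℤ} (h : lvl w = v) :
    (2 : ℝ) ^ v ≤ w ∧ w < (2 : ℝ) ^ (v + 1) := by
  constructor
  · exact coe_le_lvl.1 h.ge
  · by_contra hc
    have := coe_le_lvl.2 (not_lt.1 hc)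
    rw [h, WithBot.coe_le_coe] at this
    omega

lemma lvl_mono : Monotone lvl := by
  intro x y hxy
  rcases hx : lvl x with _ | v
  · exact bot_le
  · change (v : WithBot ℤ) ≤ lvl y
    exact coe_le_lvl.2 ((lvl_bounds hx).1.trans hxy)

open Classical in
lemma sum_le_opt {v : E → ℝ} {I : Finset E} (hI : M.Indep (I : Set E)) :
    ∑ e ∈ I, v e ≤ opt M v :=
  Finset.le_sup' (fun I : Finset E => ∑ e ∈ I, v e) (mem_filter.2 ⟨mem_univ _, hI⟩)

lemma opt_nonneg (M : Matroid E) (v : E → ℝ) : 0 ≤ opt M v := by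
  simpa using sum_le_opt (M := M) (v := v) (I := ∅) (by simp)

lemma le_opt {v : E → ℝ} {e : E} (he : M.IsNonloop e) : v e ≤ opt M v := by
  simpa using sum_le_opt (M := M) (v := v) (I := {e}) (by simpa using he.indep)

open Classical in
lemma exists_opt (M : Matroid E) (v : E → ℝ) :
    ∃ I : Finset E, M.Indep (I : Set E) ∧ ∑ e ∈ I, v e = opt M v := by
  obtain ⟨I, hI, h⟩ := Finset.exists_mem_eq_sup'
    (s := univ.filter fun I : Finset E => M.Indep (I : Set E))
    ⟨∅, by simp⟩ (fun I => ∑ e ∈ I, v e)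
  exact ⟨I, (mem_filter.1 hI).2, h.symm⟩

lemma sum_zpow_le (T : Finset ℤ) : ∀ k : ℤ, (∀ t ∈ T, t ≤ k) →
    ∑ t ∈ T, (2 : ℝ) ^ t ≤ (2 : ℝ) ^ (k + 1) := by
  induction T using Finset.induction_on_max with
  | empty => intro k _; simp; positivity
  | insert a T hlt ih =>
    intro k hk
    have hnot : a ∉ T := fun h => lt_irrefl a (hlt a h)
    have h1 := ih (a - 1) fun t ht => by have := hlt t ht; omega
    have hak : a ≤ k := hk a (by simp)
    rw [sum_insert hnot]
    calc (2 : ℝ) ^ a + ∑ t ∈ T, (2 : ℝ) ^ t ≤ (2 : ℝ) ^ a + (2 : ℝ) ^ (a - 1 + 1) := by linarith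
      _ = (2 : ℝ) ^ (a + 1) := by
        rw [show a - 1 + 1 = a by ring, zpow_add_one₀ (two_ne_zero)]; ring
      _ ≤ (2 : ℝ) ^ (k + 1) := zpow_le_zpow_right₀ one_le_two (by omega)

open Classical in
lemma exists_layer_basis (hE : M.E = Set.univ) (S : E → ℝ) (T : Finset ℤ) :
    ∃ B : Finset E, M.Indep (B : Set E) ∧
      ∀ t ∈ T, rk M {f | (2 : ℝ) ^ t ≤ S f} ≤ (B.filter fun f => (2 : ℝ) ^ t ≤ S f).card := by
  induction T using Finset.induction_on_min with
  | empty => exact ⟨∅, by simp, by simp⟩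
  | insert a T hlt ih =>
    obtain ⟨B, hB, hBT⟩ := ih
    set X : Set E := {f | (2 : ℝ) ^ a ≤ S f}
    have hB' : M.Indep ((B.filter fun f => (2 : ℝ) ^ a ≤ S f : Finset E) : Set E) :=
      hB.subset (by exact_mod_cast filter_subset _ B)
    obtain ⟨J, hJ, hBJ⟩ := hB'.subset_isBasis_of_subset (X := X)
      (fun f hf => by simp [X] at hf ⊢; exact hf.2) (by simp [hE])
    refine ⟨J.toFinset, by simpa using hJ.indep, fun t ht => ?_⟩
    rcases mem_insert.1 ht with rfl | ht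
    · have h1 : rk M X = J.ncard := by
        have h0 : M.eRk X = J.encard := hJ.eRk_eq_encard
        rw [← coe_rk, ← J.toFinite.cast_ncard_eq] at h0
        exact_mod_cast h0
      rw [h1, Set.ncard_eq_toFinset_card']
      refine card_le_card fun f hf => ?_
      simp only [Set.mem_toFinset] at hf
      simp only [mem_filter, Set.mem_toFinset]
      exact ⟨hf, hJ.subset hf⟩
    · refine (hBT t ht).trans (card_le_card fun f hf => ?_)
      simp only [mem_filter, Set.mem_toFinset] at hf ⊢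
      refine ⟨hBJ ?_, hf.2⟩
      simp only [coe_filter, Set.mem_setOf_eq]
      exact ⟨hf.1, (zpow_le_zpow_right₀ one_le_two (hlt t ht).le).trans hf.2⟩

open Classical in
/-- Layer bound: `∑ 2^t rank {S ≥ 2^t} ≤ 2 OPT(S)`. -/
lemma layers_le_opt (hE : M.E = Set.univ) (S : E → ℝ) (hS : ∀ e, 0 ≤ S e) (T : Finset ℤ) :
    ∑ t ∈ T, (2 : ℝ) ^ t * rk M {f | (2 : ℝ) ^ t ≤ S f} ≤ 2 * opt M S := by
  obtain ⟨B, hB, hBT⟩ := exists_layer_basis hE S T
  have key : ∀ f ∈ B, ∑ t ∈ T, (if (2 : ℝ) ^ t ≤ S f then (2 : ℝ) ^ t else 0) ≤ 2 * S f := by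
    intro f _
    rw [← sum_filter]
    rcases eq_or_lt_of_le (hS f) with h | h
    · rw [filter_false_of_mem]
      · simp [hS f]
      · intro t _
        rw [← h, not_le]
        positivity
    · have h1 : ∀ t ∈ T.filter (fun t : ℤ => (2 : ℝ) ^ t ≤ S f), t ≤ Int.log 2 (S f) := by
        intro t ht
        have h2 := coe_le_lvl.2 (mem_filter.1 ht).2
        simpa [lvl, h] using h2
      refine (sum_zpow_le _ _ h1).trans ?_
      rw [zpow_add_one₀ (two_ne_zero), mul_comm]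
      have := Int.zpow_log_le_self (R := ℝ) (b := 2) one_lt_two h
      push_cast at this
      linarith
  calc ∑ t ∈ T, (2 : ℝ) ^ t * rk M {f | (2 : ℝ) ^ t ≤ S f}
      ≤ ∑ t ∈ T, ∑ f ∈ B, (if (2 : ℝ) ^ t ≤ S f then (2 : ℝ) ^ t else 0) := by
        refine sum_le_sum fun t ht => ?_
        rw [← sum_filter, sum_const, nsmul_eq_mul, mul_comm]
        exact mul_le_mul_of_nonneg_right (by exact_mod_cast hBT t ht) (by positivity)
    _ = ∑ f ∈ B, ∑ t ∈ T, (if (2 : ℝ) ^ t ≤ S f then (2 : ℝ) ^ t else 0) := sum_comm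
    _ ≤ ∑ f ∈ B, 2 * S f := sum_le_sum key
    _ ≤ 2 * opt M S := by rw [← mul_sum]; linarith [sum_le_opt (v := S) hB]

end Vale.Agent.P331
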