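import Vale.Agent.P331.Block
import Vale.Agent.P331.Levels

/-!
# P331: what a block rule gains
-/

namespace Vale.Agent.P331

open Finset

variable {E : Type*} [Fintype E] [DecidableEq E] {M : Matroid E}
variable {C : ℤ → Set E} {low top lo hi s : ℤ} {V : E → ℝ}

open Classical in
/-- Candidates as a finset. -/
noncomputable def cands (C : ℤ → Set E) (low top lo hi s : ℤ) (lV : E → Lv) : Finset E :=
  univ.filter (IsCand C low top lo hi s lV)

open Classical in
/-- Safe candidates: not spanned by the other values at or above the window. -/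
noncomputable def safes (M : Matroid E) (C : ℤ → Set E) (low top lo hi s : ℤ) (lV : E → Lv) :
    Finset E :=
  (cands C low top lo hi s lV).filter fun e =>
    e ∉ M.closure {f | f ≠ e ∧ ((bl lo hi s lV e + lo : ℤ) : Lv) ≤ lV f}

/-- The possible loss of a block rule. -/
noncomputable def blockLoss (M : Matroid E) (C : ℤ → Set E) (low top lo hi s : ℤ)
    (lV : E → Lv) : ℝ :=
  ∑ a ∈ (cands C low top lo hi s lV).image (bl lo hi s lV),
    (2 : ℝ) ^ (a + hi) * rk M (C (a + (hi + 12)))

lemma cand_bounds {e : E} (h : IsCand C low top lo hi s (fun e => lvl (V e)) e) :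
    (2 : ℝ) ^ lev (fun e => lvl (V e)) e ≤ V e ∧
      V e < (2 : ℝ) ^ (lev (fun e => lvl (V e)) e + 1) := by
  obtain ⟨v, hv⟩ := WithBot.ne_bot_iff_exists.1 h.1
  have : lev (fun e => lvl (V e)) e = v := by simp [lev, ← hv]
  rw [this]
  exact lvl_bounds hv.symm

variable (hE : M.E = Set.univ) (hV : ∀ e, 0 ≤ V e) (hhi : 0 ≤ hi)
  (σ : Fin (Fintype.card E) ≃ E)

include hE hV hhi

open Classical in
lemma blockSet_safe_gain :
    ∑ e ∈ safes M C low top lo hi s (fun e => lvl (V e)), V e ≤
      ∑ e ∈ blockSet M C low top lo hi s (fun e => lvl (V e)) σ, V e +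
        blockLoss M C low top lo hi s (fun e => lvl (V e)) := by
  set lV : E → Lv := fun e => lvl (V e) with hlV
  obtain ⟨hA, hover, hspan⟩ := block_spec (C := C) (low := low) (top := top) (lo := lo) (hi := hi)
    (s := s) (lV := lV) hE σ
  set A := blockSet M C low top lo hi s lV σ
  set Z := safes M C low top lo hi s lV
  set P := cands C low top lo hi s lV with hP
  set U := P.image (bl lo hi s lV)
  have hZP : Z ⊆ P := filter_subset _ _
  have hAP : A ⊆ P := fun e he => mem_filter.2 ⟨mem_univ _, hA e he⟩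
  rw [← sum_fiberwise_of_maps_to (s := Z) (t := U) (g := bl lo hi s lV)
      (fun e he => mem_image_of_mem _ (hZP he)),
    ← sum_fiberwise_of_maps_to (s := A) (t := U) (g := bl lo hi s lV)
      (fun e he => mem_image_of_mem _ (hAP he)), blockLoss, ← sum_add_distrib]
  refine sum_le_sum fun a _ => ?_
  set Za := Z.filter fun e => bl lo hi s lV e = a
  set Aa := A.filter fun e => bl lo hi s lV e = a
  set Pa := P.filter fun e => bl lo hi s lV e = a
  have hlost : (Za \ Aa).card ≤ rk M (C (a + (hi + 12))) := by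
    refine card_lost_le hE (filter_subset_filter _ hZP) (filter_subset_filter _ hAP) (hover a)
      ?_ ?_
    · intro x hx
      obtain ⟨hx1, hx2⟩ := mem_filter.1 hx
      have := hspan x (mem_filter.1 hx1).2
      rw [hx2] at this
      exact this
    · intro z hz
      obtain ⟨hz1, hz2⟩ := mem_filter.1 hz
      intro hcl
      refine (mem_filter.1 hz1).2 (M.closure_subset_closure ?_ hcl)
      intro f hf
      simp only [Set.mem_sdiff, coe_filter, Set.mem_singleton_iff, Pa] at hf
      obtain ⟨⟨hf1, hf2⟩, hf3⟩ := hf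
      refine ⟨hf3, ?_⟩
      have hc := (mem_filter.1 hf1).2
      obtain ⟨v, hv⟩ := WithBot.ne_bot_iff_exists.1 hc.1
      have hb := (blk_le (lo := lo) (hi := hi) (s := s) hhi v).1
      simp only [bl, lev, ← hv, WithBot.unbotD_coe] at hf2
      rw [hz2, ← hv, WithBot.coe_le_coe]
      omega
  have hup : ∀ e ∈ Za \ Aa, V e ≤ (2 : ℝ) ^ (a + hi) := by
    intro e he
    obtain ⟨he1, he2⟩ := mem_filter.1 (mem_sdiff.1 he).1
    have hc := (mem_filter.1 (hZP he1)).2
    have h3 := hc.2.2.2.1
    rw [he2] at h3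
    exact (cand_bounds hc).2.le.trans (zpow_le_zpow_right₀ one_le_two (by simp only [hlV] at h3 ⊢; omega))
  calc ∑ e ∈ Za, V e = ∑ e ∈ Za ∩ Aa, V e + ∑ e ∈ Za \ Aa, V e :=
        (sum_inter_add_sum_sdiff _ _ _).symm
    _ ≤ ∑ e ∈ Aa, V e + (Za \ Aa).card • (2 : ℝ) ^ (a + hi) :=
        add_le_add (sum_le_sum_of_subset_of_nonneg inter_subset_right (fun e _ _ => hV e))
          (sum_le_card_nsmul _ _ _ hup)
    _ ≤ ∑ e ∈ Aa, V e + (2 : ℝ) ^ (a + hi) * rk M (C (a + (hi + 12))) := by
        rw [nsmul_eq_mul, mul_comm]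
        gcongr

open Classical in
lemma blockSet_indep_gain (hw : hi = lo + 1) {I : Finset E} (hI : M.Indep (I : Set E)) :
    (∑ e ∈ (cands C low top lo hi s (fun e => lvl (V e))).filter (· ∈ I), V e) / 2 ≤
      ∑ e ∈ blockSet M C low top lo hi s (fun e => lvl (V e)) σ, V e +
        blockLoss M C low top lo hi s (fun e => lvl (V e)) := by
  set lV : E → Lv := fun e => lvl (V e) with hlV
  obtain ⟨hA, hover, hspan⟩ := block_spec (C := C) (low := low) (top := top) (lo := lo) (hi := hi)
    (s := s) (lV := lV) hE σ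
  set A := blockSet M C low top lo hi s lV σ
  set P := cands C low top lo hi s lV with hP
  set J := P.filter (· ∈ I)
  set U := P.image (bl lo hi s lV)
  have hJP : J ⊆ P := filter_subset _ _
  have hAP : A ⊆ P := fun e he => mem_filter.2 ⟨mem_univ _, hA e he⟩
  rw [← sum_fiberwise_of_maps_to (s := J) (t := U) (g := bl lo hi s lV)
      (fun e he => mem_image_of_mem _ (hJP he)),
    ← sum_fiberwise_of_maps_to (s := A) (t := U) (g := bl lo hi s lV)
      (fun e he => mem_image_of_mem _ (hAP he)), blockLoss, ← sum_add_distrib, sum_div]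
  refine sum_le_sum fun a _ => ?_
  set Ja := J.filter fun e => bl lo hi s lV e = a
  set Aa := A.filter fun e => bl lo hi s lV e = a
  have hlev : ∀ e ∈ P, bl lo hi s lV e = a → lev lV e = a + lo := by
    intro e he hea
    have hc := (mem_filter.1 he).2
    have hb := (blk_le (lo := lo) (hi := hi) (s := s) hhi (lev lV e)).1
    have h3 := hc.2.2.2.1
    simp only [bl] at hea h3
    omega
  have hcard : Ja.card ≤ Aa.card + rk M (C (a + (hi + 12))) := by
    refine card_indep_le (P := P.filter fun e => bl lo hi s lV e = a)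
      (filter_subset_filter _ hJP) (hI.subset ?_) (hover a) ?_
    · intro x hx
      simp [Ja, J] at hx
      simp [hx]
    · intro x hx
      obtain ⟨hx1, hx2⟩ := mem_filter.1 hx
      have := hspan x (mem_filter.1 hx1).2
      rw [hx2] at this
      exact this
  have hup : ∀ e ∈ Ja, V e ≤ (2 : ℝ) ^ (a + hi) := by
    intro e he
    obtain ⟨he1, he2⟩ := mem_filter.1 he
    refine (cand_bounds (mem_filter.1 (hJP he1)).2).2.le.trans ?_
    rw [hlev e (hJP he1) he2, hw, add_assoc]
  have hdown : ∀ e ∈ Aa, (2 : ℝ) ^ (a + hi) / 2 ≤ V e := by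
    intro e he
    obtain ⟨he1, he2⟩ := mem_filter.1 he
    refine le_trans ?_ (cand_bounds (mem_filter.1 (hAP he1)).2).1
    rw [hlev e (hAP he1) he2, hw, ← add_assoc, zpow_add_one₀ (two_ne_zero)]
    linarith
  have h1 := sum_le_card_nsmul _ _ _ hup
  have h2 := card_nsmul_le_sum _ _ _ hdown
  have h3 : (Ja.card : ℝ) ≤ Aa.card + rk M (C (a + (hi + 12))) := by exact_mod_cast hcard
  have h4 : (0 : ℝ) < (2 : ℝ) ^ (a + hi) := by positivity
  rw [nsmul_eq_mul] at h1 h2
  nlinarith [mul_le_mul_of_nonneg_right h3 h4.le]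

end Vale.Agent.P331
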