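import Vale.Agent.P331.Swap

/-!
# P331: bounds in expectation
-/

namespace Vale.Agent.P331

open Finset MeasureTheory

variable {E : Type*} [Fintype E] [DecidableEq E] {M : Matroid E}
variable (D : E → Measure ℝ) [∀ e, IsProbabilityMeasure (D e)]
variable (hD : ∀ e, D e (Set.Iio 0) = 0)
variable (hint : Integrable (fun ω : Ω E => opt M ω.2) (jointLaw D))

omit [∀ e, IsProbabilityMeasure (D e)] in
lemma integrable_of_le_opt {f : Ω E → ℝ} {g : Ω E → ℝ} (hg : Integrable g (jointLaw D))
    (hf : Measurable f) (h : ∀ᵐ ω ∂jointLaw D, 0 ≤ f ω ∧ f ω ≤ g ω) :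
    Integrable f (jointLaw D) :=
  hg.mono' hf.aestronglyMeasurable (h.mono fun ω hω => by
    rw [Real.norm_eq_abs, abs_of_nonneg hω.1]; exact hω.2)

include hint in
lemma integrable_opt_fst : Integrable (fun ω : Ω E => opt M ω.1) (jointLaw D) := by
  simpa [sw] using integrable_sw D (fun _ => true) hint

lemma integral_opt_fst :
    ∫ ω, opt M ω.1 ∂jointLaw D = ∫ ω, opt M ω.2 ∂jointLaw D := by
  simpa [sw] using integral_sw D (fun _ => true) (fun ω : Ω E => opt M ω.2)

lemma integral_mx_fst :
    ∫ ω, mx M ω.1 ∂jointLaw D = ∫ ω, mx M ω.2 ∂jointLaw D := by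
  simpa [sw] using integral_sw D (fun _ => true) (fun ω : Ω E => mx M ω.2)

include hD hint in
lemma integrable_mx : Integrable (fun ω : Ω E => mx M ω.1) (jointLaw D) ∧
    Integrable (fun ω : Ω E => mx M ω.2) (jointLaw D) :=
  ⟨integrable_of_le_opt D (integrable_opt_fst D hint) ((measurable_mx M).comp measurable_fst)
      (.of_forall fun ω => ⟨mx_nonneg M _, mx_le_opt M _⟩),
    integrable_of_le_opt D hint ((measurable_mx M).comp measurable_snd)
      (.of_forall fun ω => ⟨mx_nonneg M _, mx_le_opt M _⟩)⟩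

/-- The value of a non-loop on an event. -/
noncomputable def on (e : E) (P : Ω E → Prop) (ω : Ω E) : ℝ :=
  {ω | P ω}.indicator (fun ω => ω.2 e) ω

omit [Fintype E] [DecidableEq E] in
lemma on_pos {e : E} {P : Ω E → Prop} {ω : Ω E} (h : P ω) : on e P ω = ω.2 e :=
  Set.indicator_of_mem (show ω ∈ {ω | P ω} from h) _

omit [Fintype E] [DecidableEq E] in
lemma on_neg {e : E} {P : Ω E → Prop} {ω : Ω E} (h : ¬ P ω) : on e P ω = 0 :=
  Set.indicator_of_notMem (show ω ∉ {ω | P ω} from h) _

include hD hint in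
lemma integrable_on {e : E} (he : M.IsNonloop e) {P : Ω E → Prop} (hP : MeasurableSet {ω | P ω}) :
    Integrable (on e P) (jointLaw D) := by
  refine integrable_of_le_opt D hint (Measurable.indicator (by fun_prop) hP) ?_
  filter_upwards [ae_nonneg_law D hD] with ω hω
  by_cases h : P ω
  · rw [on_pos h]; exact ⟨(hω e).2, le_opt he⟩
  · rw [on_neg h]; exact ⟨le_rfl, opt_nonneg M _⟩

/-- `e` is not spanned by the other values at its level or above. -/
def evA (M : Matroid E) (e : E) (ω : Ω E) : Prop :=
  ¬ clx M (lvls ω.2) e (lev (lvls ω.2) e)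

/-- The other samples span `e` wherever the other values do. -/
def evC (M : Matroid E) (e : E) (ω : Ω E) : Prop :=
  ∀ t : ℤ, clx M (lvls ω.2) e t → clx M (lvls ω.1) e t

/-- The other samples span `e` at its level. -/
def evB (M : Matroid E) (e : E) (ω : Ω E) : Prop :=
  clx M (lvls ω.1) e (lev (lvls ω.2) e)

/-- `e` is in the optimum. -/
def evI (M : Matroid E) (e : E) (ω : Ω E) : Prop := e ∈ bestSet M (cmpData ω.2)

lemma measurableSet_evA (M : Matroid E) (e : E) : MeasurableSet {ω | evA M e ω} :=
  measurableSet_lvData fun d => ¬ clx M d.2 e (lev d.2 e)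

lemma measurableSet_evC (M : Matroid E) (e : E) : MeasurableSet {ω | evC M e ω} :=
  measurableSet_lvData fun d => ∀ t : ℤ, clx M d.2 e t → clx M d.1 e t

lemma measurableSet_evB (M : Matroid E) (e : E) : MeasurableSet {ω | evB M e ω} :=
  measurableSet_lvData fun d => clx M d.1 e (lev d.2 e)

/-- The exchange leaving `e` alone. -/
def swOthers (e : E) : E → Bool := fun i => decide (i ≠ e)

omit [Fintype E] in
lemma swOthers_snd (e : E) (ω : Ω E) : (sw (swOthers e) ω).2 e = ω.2 e := by
  simp [sw, swOthers]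

omit [Fintype E] in
lemma lev_swOthers (e : E) (ω : Ω E) :
    lev (lvls (sw (swOthers e) ω).2) e = lev (lvls ω.2) e := by
  simp [lev, lvls, swOthers_snd]

omit [Fintype E] in
lemma clx_swOthers_fst (e : E) (ω : Ω E) (t : ℤ) :
    clx M (lvls (sw (swOthers e) ω).1) e t ↔ clx M (lvls ω.2) e t := by
  have h : {f | f ≠ e ∧ (t : Lv) ≤ lvls (sw (swOthers e) ω).1 f} =
      {f | f ≠ e ∧ (t : Lv) ≤ lvls ω.2 f} :=
    Set.ext fun f => and_congr_right fun hf => by simp [lvls, sw, swOthers, hf]
  rw [clx, clx, h]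

omit [Fintype E] in
lemma clx_swOthers_snd (e : E) (ω : Ω E) (t : ℤ) :
    clx M (lvls (sw (swOthers e) ω).2) e t ↔ clx M (lvls ω.1) e t := by
  have h : {f | f ≠ e ∧ (t : Lv) ≤ lvls (sw (swOthers e) ω).2 f} =
      {f | f ≠ e ∧ (t : Lv) ≤ lvls ω.1 f} :=
    Set.ext fun f => and_congr_right fun hf => by simp [lvls, sw, swOthers, hf]
  rw [clx, clx, h]

include hD hint in
/-- Exchange lemma: a quarter of `e`'s share of the optimum is covered. -/
lemma exchange_bound {e : E} (he : M.IsNonloop e) :
    ∫ ω, on e (evI M e) ω ∂jointLaw D ≤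
      4 * (∫ ω, on e (fun ω => evA M e ω ∧ evC M e ω) ω ∂jointLaw D +
        ∫ ω, on e (fun ω => evI M e ω ∧ evB M e ω) ω ∂jointLaw D) := by
  set τ := sw (swOthers e)
  have hA := measurableSet_evA M e
  have hB := measurableSet_evB M e
  have hC := measurableSet_evC M e
  have hI : MeasurableSet {ω | evI M e ω} := measurableSet_bestSet M e
  have iAC := integrable_on D hD hint he (P := fun ω => evA M e ω ∧ evC M e ω) (hA.inter hC)
  have iA := integrable_on D hD hint he (P := evA M e) hA
  have iI := integrable_on D hD hint he (P := evI M e) hI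
  have iIB := integrable_on D hD hint he (P := fun ω => evI M e ω ∧ evB M e ω) (hI.inter hB)
  have h0 : ∀ᵐ ω ∂jointLaw D, 0 ≤ ω.2 e := (ae_nonneg_law D hD).mono fun ω hω => (hω e).2
  have hτA : ∀ ω, evA M e (τ ω) ↔ ¬ evB M e ω := fun ω => by
    simp only [evA, evB, τ, lev_swOthers, clx_swOthers_snd]
  have hτC : ∀ ω, evC M e (τ ω) ↔ ∀ t : ℤ, clx M (lvls ω.1) e t → clx M (lvls ω.2) e t :=
    fun ω => by simp only [evC, τ, clx_swOthers_fst, clx_swOthers_snd]
  -- the covered half of `evA`
  have h1 : ∫ ω, on e (evA M e) ω ∂jointLaw D ≤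
      2 * ∫ ω, on e (fun ω => evA M e ω ∧ evC M e ω) ω ∂jointLaw D := by
    have key : ∀ᵐ ω ∂jointLaw D, on e (evA M e) ω ≤
        on e (fun ω => evA M e ω ∧ evC M e ω) ω +
          on e (fun ω => evA M e ω ∧ evC M e ω) (τ ω) := by
      filter_upwards [h0] with ω hω
      have hω' : 0 ≤ (τ ω).2 e := by simp only [τ, swOthers_snd]; exact hω
      have hn : ∀ ω', 0 ≤ ω'.2 e → 0 ≤ on e (fun ω => evA M e ω ∧ evC M e ω) ω' := by
        intro ω' h
        by_cases hp : evA M e ω' ∧ evC M e ω'
        · rw [on_pos (P := fun ω => evA M e ω ∧ evC M e ω) hp]; exact h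
        · rw [on_neg (P := fun ω => evA M e ω ∧ evC M e ω) hp]
      by_cases ha : evA M e ω
      · rw [on_pos ha]
        by_cases hc : evC M e ω
        · rw [on_pos (P := fun ω => evA M e ω ∧ evC M e ω) ⟨ha, hc⟩]
          linarith [hn _ hω']
        · obtain ⟨t₀, ht₀, hnot⟩ : ∃ t : ℤ, clx M (lvls ω.2) e t ∧ ¬ clx M (lvls ω.1) e t := by
            simpa [evC] using hc
          have hlt : t₀ < lev (lvls ω.2) e := lt_of_not_ge fun h => ha (clx_antitone h ht₀)
          have hA' : evA M e (τ ω) := (hτA ω).2 fun hb => hnot (clx_antitone hlt.le hb)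
          have hC' : evC M e (τ ω) := (hτC ω).2 fun t ht =>
            clx_antitone (le_of_not_ge fun h => hnot (clx_antitone h ht)) ht₀
          rw [on_pos (P := fun ω => evA M e ω ∧ evC M e ω) ⟨hA', hC'⟩]
          simp only [τ, swOthers_snd]
          linarith [hn ω hω]
      · rw [on_neg ha]
        exact add_nonneg (hn ω hω) (hn _ hω')
    have := integral_mono_ae iA (iAC.add (integrable_sw D (swOthers e) iAC)) key
    rw [integral_add' iAC (integrable_sw D (swOthers e) iAC),
      integral_sw D (swOthers e) (on e fun ω => evA M e ω ∧ evC M e ω)] at this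
    linarith
  -- the rest of the optimum
  have h2 : ∀ᵐ ω ∂jointLaw D, on e (evI M e) ω ≤
      on e (evA M e) ω + on e (evA M e) (τ ω) + on e (fun ω => evI M e ω ∧ evB M e ω) ω := by
    filter_upwards [h0] with ω hω
    have hv : (τ ω).2 e = ω.2 e := swOthers_snd e ω
    have n1 : 0 ≤ on e (evA M e) ω := Set.indicator_apply_nonneg fun _ => hω
    have n2 : 0 ≤ on e (evA M e) (τ ω) := Set.indicator_apply_nonneg fun _ => by rw [hv]; exact hω
    have n3 : 0 ≤ on e (fun ω => evI M e ω ∧ evB M e ω) ω :=
      Set.indicator_apply_nonneg fun _ => hω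
    by_cases hi : evI M e ω
    · rw [on_pos hi]
      by_cases ha : evA M e ω
      · rw [on_pos ha]; linarith
      · by_cases hb : evB M e ω
        · rw [on_pos (P := fun ω => evI M e ω ∧ evB M e ω) ⟨hi, hb⟩]; linarith
        · rw [on_pos ((hτA ω).2 hb), hv]; linarith
    · rw [on_neg hi]; linarith
  have iAτ := integrable_sw D (swOthers e) iA
  have i12 : Integrable (fun ω => on e (evA M e) ω + on e (evA M e) (τ ω)) (jointLaw D) :=
    iA.add iAτ
  have h3 := integral_mono_ae iI (i12.add iIB) h2
  rw [integral_add' i12 iIB, integral_add iA iAτ, integral_sw D (swOthers e) (on e (evA M e))] at h3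
  have hAC : 0 ≤ ∫ ω, on e (fun ω => evA M e ω ∧ evC M e ω) ω ∂jointLaw D :=
    integral_nonneg_of_ae <| h0.mono fun ω hω => Set.indicator_apply_nonneg fun _ => hω
  have hIB : 0 ≤ ∫ ω, on e (fun ω => evI M e ω ∧ evB M e ω) ω ∂jointLaw D :=
    integral_nonneg_of_ae <| h0.mono fun ω hω => Set.indicator_apply_nonneg fun _ => hω
  linarith

open Classical in
/-- The values above every sample. -/
noncomputable def excess (M : Matroid E) (ω : Ω E) : ℝ :=
  ∑ e ∈ univ.filter (fun e => M.IsNonloop e ∧ mx M ω.1 < ω.2 e), ω.2 e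

include hD hint in
open Classical in
/-- Values above every sample total at most the largest value. -/
lemma excess_bound : Integrable (excess M) (jointLaw D) ∧
    ∫ ω, excess M ω ∂jointLaw D ≤ ∫ ω, mx M ω.2 ∂jointLaw D := by
  set N := univ.filter fun e => M.IsNonloop e
  set P : E → Ω E → Prop := fun e ω => mx M ω.1 < ω.2 e with hP
  have heq : excess M = fun ω => ∑ e ∈ N, on e (P e) ω := by
    funext ω
    simp only [excess, N, sum_filter]
    refine sum_congr rfl fun e _ => ?_
    by_cases hn : M.IsNonloop e <;> by_cases hlt : mx M ω.1 < ω.2 e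
    · rw [if_pos ⟨hn, hlt⟩, if_pos hn, on_pos (P := P e) hlt]
    · rw [if_neg (fun h => hlt h.2), if_pos hn, on_neg (P := P e) hlt]
    · rw [if_neg (fun h => hn h.1), if_neg hn]
    · rw [if_neg (fun h => hn h.1), if_neg hn]
  have hi : ∀ e ∈ N, Integrable (on e (P e)) (jointLaw D) := fun e he =>
    integrable_on D hD hint (mem_filter.1 he).2
      (measurableSet_lt ((measurable_mx M).comp measurable_fst) (by fun_prop))
  refine ⟨heq ▸ integrable_finset_sum _ hi, ?_⟩
  set δ : E → E → Bool := fun e i => decide (i = e)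
  calc ∫ ω, excess M ω ∂jointLaw D = ∑ e ∈ N, ∫ ω, on e (P e) ω ∂jointLaw D := by
        rw [heq, integral_finset_sum _ hi]
    _ = ∑ e ∈ N, ∫ ω, on e (P e) (sw (δ e) ω) ∂jointLaw D :=
        sum_congr rfl fun e _ => (integral_sw D (δ e) _).symm
    _ = ∫ ω, ∑ e ∈ N, on e (P e) (sw (δ e) ω) ∂jointLaw D :=
        (integral_finset_sum _ fun e he => integrable_sw D (δ e) (hi e he)).symm
    _ ≤ ∫ ω, mx M ω.1 ∂jointLaw D := by
        refine integral_mono_ae (integrable_finset_sum _ fun e he => integrable_sw D _ (hi e he))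
          (integrable_mx D hD hint).1 ?_
        filter_upwards [ae_nonneg_law D hD] with ω hω
        refine le_of_eq_of_le ?_ (sum_beat_le M (V := ω.2) fun e => (hω e).1)
        simp only [N, sum_filter]
        refine sum_congr rfl fun e _ => ?_
        have hu : (sw (δ e) ω).1 = Function.update ω.1 e (ω.2 e) := by
          funext i
          by_cases hie : i = e
          · subst hie; simp [sw, δ]
          · simp [sw, δ, hie, Function.update_of_ne hie]
        have hv : (sw (δ e) ω).2 e = ω.1 e := by simp [sw, δ]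
        by_cases hn : M.IsNonloop e <;>
          by_cases hlt : mx M (Function.update ω.1 e (ω.2 e)) < ω.1 e
        · rw [if_pos hn, if_pos ⟨hn, hlt⟩, on_pos (P := P e) (by simp only [hP, hu, hv]; exact hlt), hv]
        · rw [if_pos hn, if_neg (fun h => hlt h.2),
            on_neg (P := P e) (by simp only [hP, hu, hv]; exact hlt)]
        · rw [if_neg hn, if_neg (fun h => hn h.1)]
        · rw [if_neg hn, if_neg (fun h => hn h.1)]
    _ = ∫ ω, mx M ω.2 ∂jointLaw D := integral_mx_fst D

omit [DecidableEq E] in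
lemma mx_pooled_exists (M : Matroid E) (p : E → ℝ) (hne : ∃ e, M.IsNonloop e) :
    ∃ e f, M.IsNonloop e ∧ M.IsNonloop f ∧ (∀ g, M.IsNonloop g → p g ≤ p e) ∧
      ∀ g, M.IsNonloop g → g ≠ e → f ≠ e ∧ p g ≤ p f := by
  classical
  obtain ⟨e₀, he₀⟩ := hne
  obtain ⟨e, he, hmax⟩ := exists_max_image (univ.filter fun g => M.IsNonloop g) p ⟨e₀, by simp [he₀]⟩
  have he' := (mem_filter.1 he).2
  by_cases h : ((univ.filter fun g => M.IsNonloop g).erase e).Nonempty
  · obtain ⟨f, hf, hfmax⟩ := exists_max_image _ p h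
    obtain ⟨hfe, hf'⟩ := mem_erase.1 hf
    exact ⟨e, f, he', (mem_filter.1 hf').2, fun g hg => hmax g (by simp [hg]),
      fun g hg hge => ⟨hfe, hfmax g (by simp [hge, hg])⟩⟩
  · refine ⟨e, e, he', he', fun g hg => hmax g (by simp [hg]), fun g hg hge => ?_⟩
    exact absurd ⟨g, by simp [hge, hg]⟩ h

include hD hint in
open Classical in
/-- A single item, one sample: the two rules together get a quarter of the expected maximum. -/
lemma single_bound (h : Ω E → ℝ) (hi : Integrable h (jointLaw D))
    (hn : ∀ᵐ ω ∂jointLaw D, 0 ≤ h ω)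
    (hge : ∀ ω : Ω E, (∀ g, 0 ≤ ω.1 g) → (∀ g, 0 ≤ ω.2 g) → ∀ e f, M.IsNonloop e → M.IsNonloop f →
      (∀ g, M.IsNonloop g → max (ω.1 g) (ω.2 g) ≤ ω.2 e) →
      (∀ g, M.IsNonloop g → g ≠ e → f ≠ e ∧ max (ω.1 g) (ω.2 g) ≤ ω.1 f) → ω.2 e ≤ h ω) :
    ∫ ω, mx M ω.2 ∂jointLaw D ≤ 4 * ∫ ω, h ω ∂jointLaw D := by
  have hcard : ∑ T : E → Bool, ∫ ω, h (sw T ω) ∂jointLaw D =
      (Fintype.card (E → Bool) : ℝ) * ∫ ω, h ω ∂jointLaw D := by
    simp [integral_sw, card_univ]
  have key : ∀ᵐ ω ∂jointLaw D,
      (Fintype.card (E → Bool) : ℝ) * mx M ω.2 ≤ 4 * ∑ T : E → Bool, h (sw T ω) := by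
    have hn' : ∀ T : E → Bool, ∀ᵐ ω ∂jointLaw D, 0 ≤ h (sw T ω) := fun T =>
      (measurePreserving_sw D T).quasiMeasurePreserving.ae hn
    filter_upwards [ae_nonneg_law D hD, ae_all_iff.2 hn'] with ω hω hpos
    by_cases hne : ∃ e, M.IsNonloop e
    · obtain ⟨e, f, he, hf, htop, hsec⟩ :=
        mx_pooled_exists M (fun g => max (ω.1 g) (ω.2 g)) hne
      set X := max (ω.1 e) (ω.2 e)
      have hmx : mx M ω.2 ≤ X := mx_le ((hω e).1.trans (le_max_left _ _))
        fun g hg => (le_max_right _ _).trans (htop g hg)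
      set be : Bool := decide (ω.2 e < ω.1 e)
      set bf : Bool := decide (ω.1 f < ω.2 f)
      set Ue : (E → Bool) → (E → Bool) := fun T => Function.update T e (!T e)
      set Uf : (E → Bool) → (E → Bool) := fun T => Function.update T f (!T f)
      have hUe : Function.Involutive Ue := fun T => by simp [Ue]
      have hUf : Function.Involutive Uf := fun T => by simp [Uf]
      have hgood : ∀ T : E → Bool, T e = be → (f ≠ e → T f = bf) → X ≤ h (sw T ω) := by
        intro T hTe hTf
        have hVe : (sw T ω).2 e = X := by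
          simp only [sw, hTe, be, X]
          by_cases hlt : ω.2 e < ω.1 e
          · simp [hlt, max_eq_left hlt.le]
          · simp [hlt, max_eq_right (not_lt.1 hlt)]
        have hpool : ∀ g, max ((sw T ω).1 g) ((sw T ω).2 g) = max (ω.1 g) (ω.2 g) := by
          intro g
          simp only [sw]
          cases T g <;> simp [max_comm]
        rw [← hVe]
        refine hge _ (fun g => ?_) (fun g => ?_) e f he hf (fun g hg => ?_) (fun g hg hge' => ?_)
        · simp only [sw]; split_ifs <;> simp [hω g]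
        · simp only [sw]; split_ifs <;> simp [hω g]
        · rw [hpool, hVe]; exact htop g hg
        · obtain ⟨hfe, hle⟩ := hsec g hg hge'
          refine ⟨hfe, ?_⟩
          rw [hpool]
          refine hle.trans_eq ?_
          simp only [sw, hTf hfe, bf]
          by_cases hlt : ω.1 f < ω.2 f
          · simp [hlt, max_eq_right hlt.le]
          · simp [hlt, max_eq_left (not_lt.1 hlt)]
      have hfour : ∀ T : E → Bool, X ≤
          h (sw T ω) + h (sw (Ue T) ω) + h (sw (Uf T) ω) + h (sw (Ue (Uf T)) ω) := by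
        intro T
        have p1 := hpos T
        have p2 := hpos (Ue T)
        have p3 := hpos (Uf T)
        have p4 := hpos (Ue (Uf T))
        by_cases hfe : f = e
        · have hne' : ∀ T' : E → Bool, T' e = be → X ≤ h (sw T' ω) :=
            fun T' h' => hgood T' h' fun h'' => absurd hfe h''
          by_cases hTe : T e = be
          · linarith [hne' T hTe]
          · have hUT : (Ue T) e = be := by
              simp only [Ue, Function.update_self]; revert hTe; cases T e <;> cases be <;> simp
            linarith [hne' _ hUT]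
        · have hfl : ∀ a b : Bool, a ≠ b → (!a) = b := by decide
          by_cases hTe : T e = be <;> by_cases hTf : T f = bf
          · linarith [hgood T hTe fun _ => hTf]
          · linarith [hgood (Uf T) (by simp [Uf, Function.update_of_ne (Ne.symm hfe), hTe])
              (fun _ => by simp [Uf, hfl _ _ hTf])]
          · linarith [hgood (Ue T) (by simp [Ue, hfl _ _ hTe])
              (fun _ => by simp [Ue, Function.update_of_ne hfe, hTf])]
          · linarith [hgood (Ue (Uf T))
              (by simp [Ue, Uf, Function.update_of_ne (Ne.symm hfe), hfl _ _ hTe])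
              (fun _ => by simp [Ue, Uf, Function.update_of_ne hfe, hfl _ _ hTf])]
      have hsum := sum_le_sum (s := (univ : Finset (E → Bool))) fun T _ => hfour T
      simp only [sum_add_distrib, sum_const, card_univ, nsmul_eq_mul] at hsum
      have e1 := hUe.bijective.sum_comp fun T => h (sw T ω)
      have e2 := hUf.bijective.sum_comp fun T => h (sw T ω)
      have e3 := (hUe.bijective.comp hUf.bijective).sum_comp fun T => h (sw T ω)
      simp only [Function.comp_apply] at e3
      rw [e1, e2, e3] at hsum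
      calc (Fintype.card (E → Bool) : ℝ) * mx M ω.2 ≤ (Fintype.card (E → Bool) : ℝ) * X :=
            mul_le_mul_of_nonneg_left hmx (Nat.cast_nonneg _)
        _ ≤ 4 * ∑ T : E → Bool, h (sw T ω) := by linarith
    · have : mx M ω.2 = 0 :=
        le_antisymm (mx_le le_rfl fun g hg => absurd ⟨g, hg⟩ hne) (mx_nonneg M _)
      rw [this, mul_zero]
      exact mul_nonneg (by norm_num) (sum_nonneg fun T _ => hpos T)
  have hiT : ∀ T ∈ (univ : Finset (E → Bool)), Integrable (fun ω => h (sw T ω)) (jointLaw D) :=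
    fun T _ => integrable_sw D T hi
  have := integral_mono_ae ((integrable_mx D hD hint).2.const_mul _)
    ((integrable_finset_sum _ hiT).const_mul 4) key
  rw [integral_const_mul, integral_const_mul, integral_finset_sum _ hiT, hcard] at this
  have hpos : (0 : ℝ) < Fintype.card (E → Bool) := by exact_mod_cast Fintype.card_pos
  exact le_of_mul_le_mul_left (this.trans_eq (by ring)) hpos

end Vale.Agent.P331
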