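import Vale.Agent.P331.Expect

/-!
# P331: the rule and its guarantee
-/

namespace Vale.Agent.P331

open Finset MeasureTheory

variable {E : Type} [Fintype E] [DecidableEq E]

/-- Seeds: one of the two single-item rules, or a mode with a shift. -/
abbrev Seed (n : ℕ) := Bool ⊕ (Σ m : Fin n, Fin (mPd m))

/-- The decisions of the rule. -/
noncomputable def ruleDec (M : Matroid E) : Seed (numModes M) → (E → ℝ) →
    List (E × ℝ) → E × ℝ → Bool
  | .inl b, S => greedyDec (encS M b S) (okSingle M)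
  | .inr x, S => greedyDec lvl (okMode M (lvls S) x.1 x.2)

/-- The probabilities of the seeds. -/
noncomputable def seedProb (n : ℕ) : Seed n → ℝ
  | .inl _ => 1 / (n + 2)
  | .inr x => 1 / ((n + 2) * mPd x.1)

lemma seedProb_nonneg (n : ℕ) (r : Seed n) : 0 ≤ seedProb n r := by
  cases r <;> simp only [seedProb] <;> positivity

lemma seedProb_sum (n : ℕ) : ∑ r, seedProb n r = 1 := by
  rw [Fintype.sum_sum_type, Fintype.sum_sigma]
  simp only [seedProb, sum_const, card_univ, Fintype.card_bool, Fintype.card_fin, nsmul_eq_mul]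
  have h : ∀ x : Fin n, (mPd x : ℝ) * (1 / ((n + 2) * mPd x)) = 1 / (n + 2) := by
    intro x
    have : (0 : ℝ) < mPd x := by simp only [mPd]; positivity
    field_simp
  simp only [h, sum_const, card_univ, Fintype.card_fin, nsmul_eq_mul]
  field_simp
  push_cast
  ring

lemma accepted_inl (M : Matroid E) (b : Bool) (σ : Fin (Fintype.card E) ≃ E) (S V : E → ℝ) :
    accepted (ruleDec M (.inl b) S) σ V = singleSet M (fun e => encS M b S (V e)) σ :=
  accepted_greedy _ _ σ V

lemma accepted_inr (M : Matroid E) (x : Σ m : Fin (numModes M), Fin (mPd m))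
    (σ : Fin (Fintype.card E) ≃ E) (S V : E → ℝ) :
    accepted (ruleDec M (.inr x) S) σ V = modeSet M (lvls S) (lvls V) x.1 x.2 σ :=
  accepted_greedy _ _ σ V

lemma accepted_indep (M : Matroid E) (hE : M.E = Set.univ) (r : Seed (numModes M))
    (σ : Fin (Fintype.card E) ≃ E) (S V : E → ℝ) :
    M.Indep (accepted (ruleDec M r S) σ V : Set E) := by
  cases r with
  | inl b => rw [accepted_inl]; exact singleSet_indep _ σ
  | inr x => rw [accepted_inr]; exact modeSet_indep hE _ _ _ _ σ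

lemma measurableSet_accepted (M : Matroid E) (r : Seed (numModes M))
    (σ : Fin (Fintype.card E) ≃ E) (A : Finset E) :
    MeasurableSet {ω : Ω E | accepted (ruleDec M r ω.1) σ ω.2 = A} := by
  cases r with
  | inl b =>
    simp only [accepted_inl]
    exact measurable_qualify M b (MeasurableSet.of_discrete (s := {q | singleSet M q σ = A}))
  | inr x =>
    simp only [accepted_inr]
    exact measurableSet_lvData fun d => modeSet M d.1 d.2 x.1 x.2 σ = A

open Classical in
lemma measurable_gain (M : Matroid E) (r : Seed (numModes M))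
    (adv : Ω E → (Fin (Fintype.card E) ≃ E)) (hadv : ∀ σ, MeasurableSet {ω | adv ω = σ}) :
    Measurable fun ω : Ω E => ∑ e ∈ accepted (ruleDec M r ω.1) (adv ω) ω.2, ω.2 e := by
  have hmem : ∀ e : E,
      MeasurableSet {ω : Ω E | e ∈ accepted (ruleDec M r ω.1) (adv ω) ω.2} := by
    intro e
    have : {ω : Ω E | e ∈ accepted (ruleDec M r ω.1) (adv ω) ω.2} =
        ⋃ σ : Fin (Fintype.card E) ≃ E, ⋃ A ∈ (univ.filter fun A : Finset E => e ∈ A),
          {ω | adv ω = σ} ∩ {ω | accepted (ruleDec M r ω.1) σ ω.2 = A} := by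
      ext ω
      simp only [Set.mem_iUnion, Set.mem_inter_iff, Set.mem_setOf_eq, mem_filter, mem_univ,
        true_and]
      exact ⟨fun h => ⟨adv ω, _, h, rfl, rfl⟩,
        fun ⟨σ, A, hA, h1, h2⟩ => by subst h1; subst h2; exact hA⟩
    rw [this]
    exact MeasurableSet.iUnion fun σ => MeasurableSet.biUnion (Finset.countable_toSet _)
      fun A _ => (hadv σ).inter (measurableSet_accepted M r σ A)
  have heq : (fun ω : Ω E => ∑ e ∈ accepted (ruleDec M r ω.1) (adv ω) ω.2, ω.2 e) =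
      fun ω => ∑ e, {ω : Ω E | e ∈ accepted (ruleDec M r ω.1) (adv ω) ω.2}.indicator
        (fun ω => ω.2 e) ω := by
    funext ω
    rw [← sum_filter_add_sum_filter_not univ (fun e => e ∈ accepted (ruleDec M r ω.1) (adv ω) ω.2)]
    simp only [filter_univ_mem]
    rw [sum_congr rfl fun e he => Set.indicator_of_mem (show ω ∈ {ω : Ω E | e ∈ accepted (ruleDec M r ω.1) (adv ω) ω.2} from he) _]
    rw [sum_eq_zero (s := univ.filter fun e => ¬ e ∈ accepted (ruleDec M r ω.1) (adv ω) ω.2)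
      fun e he => Set.indicator_of_notMem (s := {ω : Ω E | e ∈ accepted (ruleDec M r ω.1) (adv ω) ω.2})
        (mem_filter.1 he).2 _, add_zero]
  rw [heq]
  exact Finset.measurable_sum _ fun e _ => Measurable.indicator (by fun_prop) (hmem e)

open Classical in
/-- Pointwise: the modes collect what is covered or dense, minus the losses. -/
lemma modes_pointwise (M : Matroid E) (hE : M.E = Set.univ) {ω : Ω E}
    (hω : ∀ e, 0 ≤ ω.1 e ∧ 0 ≤ ω.2 e) (σ : ℕ → ℕ → Fin (Fintype.card E) ≃ E) :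
    ((∑ e ∈ univ.filter (fun e => M.IsNonloop e ∧ evA M e ω ∧ evC M e ω), ω.2 e) +
        ∑ e ∈ univ.filter (fun e => M.IsNonloop e ∧ evI M e ω ∧ evB M e ω), ω.2 e) / 60 ≤
      ∑ m ∈ range (numModes M), (∑ s ∈ range (mPd m),
          ∑ e ∈ modeSet M (lvls ω.1) (lvls ω.2) m s (σ m s), ω.2 e) / mPd m +
        opt M ω.1 / 2048 + (2 * (excess M ω + mx M ω.1)) / 60 := by
  have hS : ∀ e, 0 ≤ ω.1 e := fun e => (hω e).1
  have hV : ∀ e, 0 ≤ ω.2 e := fun e => (hω e).2
  set X := univ.filter fun e => M.IsNonloop e ∧ evA M e ω ∧ evC M e ω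
  set Y := univ.filter fun e => M.IsNonloop e ∧ evI M e ω ∧ evB M e ω
  set inR : E → Prop := fun e => ∃ tp v : ℤ, lvl (mx M ω.1) = tp ∧ lvl (ω.2 e) = v ∧
    tp - depth M ≤ v ∧ v ≤ tp with hinR
  have hout : ∀ J : Finset E, M.Indep (J : Set E) →
      ∑ e ∈ J.filter (fun e => ¬ inR e), ω.2 e ≤ excess M ω + mx M ω.1 := fun J hJ =>
    outside_le hV hJ inR fun e tp v h1 h2 h3 h4 => ⟨tp, v, h1, h2, h3, h4⟩
  have hYI : M.Indep (Y : Set E) := (bestSet_spec M ω.2).1.subset fun e he =>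
    (mem_filter.1 (mem_coe.1 he)).2.2.1
  -- positive part of `X`
  set X' := X.filter fun e => lvls ω.2 e ≠ ⊥
  have hX' : M.Indep (X' : Set E) := notSpanned_indep hE X' fun e he =>
    ⟨(mem_filter.1 he).2, (mem_filter.1 (mem_filter.1 he).1).2.2.1⟩
  have hXX' : ∑ e ∈ X, ω.2 e = ∑ e ∈ X', ω.2 e := by
    symm
    refine sum_subset (filter_subset _ _) fun e he hne => ?_
    have : lvl (ω.2 e) = ⊥ := by
      by_contra h
      exact hne (mem_filter.2 ⟨he, h⟩)
    exact le_antisymm (lvl_eq_bot.1 this) (hV e)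
  have hmodes0 : 0 ≤ ∑ m ∈ range (numModes M), (∑ s ∈ range (mPd m),
      ∑ e ∈ modeSet M (lvls ω.1) (lvls ω.2) m s (σ m s), ω.2 e) / mPd m :=
    sum_nonneg fun m _ => div_nonneg (sum_nonneg fun s _ => sum_nonneg fun e _ => hV e)
      (Nat.cast_nonneg _)
  rw [hXX', ← sum_filter_add_sum_filter_not X' inR, ← sum_filter_add_sum_filter_not Y inR]
  have o1 := hout X' hX'
  have o2 := hout Y hYI
  rcases htp : lvl (mx M ω.1) with _ | tp
  · have hno : ∀ e, ¬ inR e := by
      rintro e ⟨tp, v, h, -⟩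
      rw [htp] at h
      exact WithBot.coe_ne_bot (α := ℤ) (a := tp) h.symm
    simp only [filter_false_of_mem (fun e _ => hno e), sum_empty, zero_add]
    linarith [opt_nonneg M ω.1]
  · have htop : topLv M (fun e => lvl (ω.1 e)) = tp := (topLv_lvl M ω.1).trans htp
    have hmain : ∀ e, inR e → lvls ω.2 e ≠ ⊥ ∧ tp - depth M ≤ lev (lvls ω.2) e ∧
        lev (lvls ω.2) e ≤ tp := by
      rintro e ⟨t, v, h1, h2, h3, h4⟩
      obtain rfl : tp = t := WithBot.coe_inj.1 (htp.symm.trans h1)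
      simp only [lev, lvls, h2, WithBot.unbotD_coe]
      exact ⟨WithBot.coe_ne_bot, h3, h4⟩
    have hG := modes_gain hE hS hV htop (bestSet_spec M ω.2).1 σ
    have c1 : ∑ e ∈ X'.filter inR, ω.2 e ≤ ∑ e ∈ covered M (lvls ω.1) (lvls ω.2) tp, ω.2 e := by
      refine sum_le_sum_of_subset_of_nonneg ?_ fun e _ _ => hV e
      intro e he
      obtain ⟨he1, he2⟩ := mem_filter.1 he
      obtain ⟨-, -, hA, hC⟩ := mem_filter.1 (mem_filter.1 he1).1
      obtain ⟨m1, m2, m3⟩ := hmain e he2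
      exact mem_filter.2 ⟨mem_univ _, m1, m2, m3, hA, hC⟩
    have c2 : ∑ e ∈ Y.filter inR, ω.2 e ≤
        ∑ e ∈ dense M (lvls ω.1) (lvls ω.2) tp (bestSet M (cmpData ω.2)), ω.2 e := by
      refine sum_le_sum_of_subset_of_nonneg ?_ fun e _ _ => hV e
      intro e he
      obtain ⟨he1, he2⟩ := mem_filter.1 he
      obtain ⟨-, -, hI, hB⟩ := mem_filter.1 he1
      obtain ⟨m1, m2, m3⟩ := hmain e he2
      exact mem_filter.2 ⟨hI, m1, m2, m3, hB⟩
    change (∑ e ∈ covered M (lvls ω.1) (lvls ω.2) tp, ω.2 e +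
      ∑ e ∈ dense M (lvls ω.1) (lvls ω.2) tp (bestSet M (cmpData ω.2)), ω.2 e) / 60 ≤
      ∑ m ∈ range (numModes M), (∑ s ∈ range (mPd m),
        ∑ e ∈ modeSet M (lvls ω.1) (lvls ω.2) m s (σ m s), ω.2 e) / mPd m +
      opt M ω.1 / 2048 at hG
    linarith

open Classical in
/-- The guarantee. -/
theorem guarantee (M : Matroid E) (hE : M.E = Set.univ) (D : E → Measure ℝ)
    [∀ e, IsProbabilityMeasure (D e)] (hD : ∀ e, D e (Set.Iio 0) = 0)
    (hint : Integrable (fun ω : Ω E => opt M ω.2) (jointLaw D))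
    (adv : Seed (numModes M) → Ω E → (Fin (Fintype.card E) ≃ E))
    (hadv : ∀ r σ, MeasurableSet {ω | adv r ω = σ}) :
    1 / (300 * ((numModes M : ℝ) + 2)) * ∫ ω, opt M ω.2 ∂jointLaw D ≤
      ∑ r, seedProb (numModes M) r *
        ∫ ω, ∑ e ∈ accepted (ruleDec M r ω.1) (adv r ω) ω.2, ω.2 e ∂jointLaw D := by
  set μ := jointLaw D
  set g : Seed (numModes M) → Ω E → ℝ :=
    fun r ω => ∑ e ∈ accepted (ruleDec M r ω.1) (adv r ω) ω.2, ω.2 e with hg
  have hnn := ae_nonneg_law D hD
  have hgi : ∀ r, Integrable (g r) μ := fun r =>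
    integrable_of_le_opt D hint (measurable_gain M r (adv r) (hadv r))
      (hnn.mono fun ω hω => ⟨sum_nonneg fun e _ => (hω e).2,
        sum_le_opt (accepted_indep M hE r _ _ _)⟩)
  -- single-item rules
  have hsingle : ∫ ω, mx M ω.2 ∂μ ≤ 4 * ∫ ω, g (.inl true) ω + g (.inl false) ω ∂μ := by
    refine single_bound D hD hint (fun ω => g (.inl true) ω + g (.inl false) ω)
      ((hgi _).add (hgi _))
      (hnn.mono fun ω hω => add_nonneg (sum_nonneg fun e _ => (hω e).2)
        (sum_nonneg fun e _ => (hω e).2)) ?_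
    intro ω h1 h2 e f he hf htop hsec
    simp only [hg, accepted_inl]
    exact two_single_gain h1 h2 he hf htop hsec _ _
  rw [integral_add (hgi _) (hgi _)] at hsingle
  -- the modes
  set σ : Ω E → ℕ → ℕ → Fin (Fintype.card E) ≃ E := fun ω m s =>
    if h : m < numModes M ∧ s < mPd m then adv (.inr ⟨⟨m, h.1⟩, ⟨s, h.2⟩⟩) ω
    else (Fintype.equivFin E).symm with hσ
  set G : Ω E → ℝ := fun ω => ∑ x : Σ m : Fin (numModes M), Fin (mPd m),
    g (.inr x) ω / mPd x.1 with hG
  have hGeq : ∀ ω, G ω = ∑ m ∈ range (numModes M), (∑ s ∈ range (mPd m),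
      ∑ e ∈ modeSet M (lvls ω.1) (lvls ω.2) m s (σ ω m s), ω.2 e) / mPd m := by
    intro ω
    simp only [hG, Fintype.sum_sigma, hg, accepted_inr]
    rw [← Fin.sum_univ_eq_sum_range (fun m => (∑ s ∈ range (mPd m),
      ∑ e ∈ modeSet M (lvls ω.1) (lvls ω.2) m s (σ ω m s), ω.2 e) / mPd m)]
    refine sum_congr rfl fun m _ => ?_
    rw [← Fin.sum_univ_eq_sum_range
      (fun s => ∑ e ∈ modeSet M (lvls ω.1) (lvls ω.2) m s (σ ω m s), ω.2 e), sum_div]
    refine sum_congr rfl fun s _ => ?_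
    simp only [hσ, m.2, s.2, and_self, ↓reduceDIte]
  have hGi : Integrable G μ := integrable_finset_sum _ fun x _ => (hgi _).div_const _
  set N := univ.filter fun e => M.IsNonloop e
  set fX : E → Ω E → ℝ := fun e => on e (fun ω => evA M e ω ∧ evC M e ω)
  set fY : E → Ω E → ℝ := fun e => on e (fun ω => evI M e ω ∧ evB M e ω)
  have iX : ∀ e ∈ N, Integrable (fX e) μ := fun e he =>
    integrable_on D hD hint (mem_filter.1 he).2
      ((measurableSet_evA M e).inter (measurableSet_evC M e))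
  have iY : ∀ e ∈ N, Integrable (fY e) μ := fun e he =>
    integrable_on D hD hint (mem_filter.1 he).2
      ((measurableSet_bestSet M e).inter (measurableSet_evB M e))
  have iI : ∀ e ∈ N, Integrable (on e (evI M e)) μ := fun e he =>
    integrable_on D hD hint (mem_filter.1 he).2 (measurableSet_bestSet M e)
  have hopt : ∫ ω, opt M ω.2 ∂μ = ∑ e ∈ N, ∫ ω, on e (evI M e) ω ∂μ := by
    rw [← integral_finset_sum _ iI]
    refine integral_congr_ae (.of_forall fun ω => ?_)
    change opt M ω.2 = ∑ e ∈ N, on e (evI M e) ω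
    rw [← (bestSet_spec M ω.2).2, eq_comm]
    refine (sum_subset (s₁ := bestSet M (cmpData ω.2)) ?_ ?_).symm.trans ?_
    · intro e he
      exact mem_filter.2 ⟨mem_univ _, (bestSet_spec M ω.2).1.isNonloop_of_mem he⟩
    · intro e _ he
      exact on_neg he
    · exact sum_congr rfl fun e he => on_pos he
  have hcover : ∫ ω, opt M ω.2 ∂μ ≤
      4 * (∑ e ∈ N, ∫ ω, fX e ω ∂μ + ∑ e ∈ N, ∫ ω, fY e ω ∂μ) := by
    rw [hopt, ← sum_add_distrib, mul_sum]
    exact sum_le_sum fun e he => exchange_bound D hD hint (mem_filter.1 he).2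
  have hfilter : ∀ (P : E → Ω E → Prop) (ω : Ω E),
      ∑ e ∈ univ.filter (fun e => M.IsNonloop e ∧ P e ω), ω.2 e = ∑ e ∈ N, on e (P e) ω := by
    intro P ω
    rw [← filter_filter, sum_filter]
    refine sum_congr rfl fun e _ => ?_
    by_cases hp : P e ω
    · rw [if_pos hp, on_pos hp]
    · rw [if_neg hp, on_neg hp]
  have hpt : ∀ᵐ ω ∂μ, (∑ e ∈ N, fX e ω + ∑ e ∈ N, fY e ω) / 60 ≤
      G ω + opt M ω.1 / 2048 + (2 * (excess M ω + mx M ω.1)) / 60 := by
    filter_upwards [hnn] with ω hω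
    rw [hGeq ω]
    have := modes_pointwise M hE hω (σ ω)
    have e1 := hfilter (fun e ω => evA M e ω ∧ evC M e ω) ω
    have e2 := hfilter (fun e ω => evI M e ω ∧ evB M e ω) ω
    convert this using 1
    rw [← e1, ← e2]
    congr!
  obtain ⟨iExc, hExc⟩ := excess_bound D hD hint
  have iMx := (integrable_mx D hD hint).1
  have iO := integrable_opt_fst D hint
  have iL : Integrable (fun ω => (∑ e ∈ N, fX e ω + ∑ e ∈ N, fY e ω) / 60) μ :=
    ((integrable_finset_sum _ iX).add (integrable_finset_sum _ iY)).div_const _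
  have iEM : Integrable (fun ω => (2 * (excess M ω + mx M ω.1)) / 60) μ :=
    ((iExc.add iMx).const_mul 2).div_const _
  have iGO : Integrable (fun ω => G ω + opt M ω.1 / 2048) μ := hGi.add (iO.div_const _)
  have hint' := integral_mono_ae iL (iGO.add iEM) hpt
  rw [integral_div, integral_add (integrable_finset_sum _ iX) (integrable_finset_sum _ iY),
    integral_finset_sum _ iX, integral_finset_sum _ iY, integral_add' iGO iEM,
    integral_add hGi (iO.div_const _), integral_div, integral_div, integral_const_mul,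
    integral_add iExc iMx, integral_opt_fst, integral_mx_fst] at hint'
  have hI0 : 0 ≤ ∫ ω, opt M ω.2 ∂μ := integral_nonneg fun ω => opt_nonneg M _
  have hM0 : 0 ≤ ∫ ω, mx M ω.2 ∂μ := integral_nonneg fun ω => mx_nonneg M _
  have htotal : ∫ ω, opt M ω.2 ∂μ ≤
      300 * (∫ ω, g (.inl true) ω ∂μ + ∫ ω, g (.inl false) ω ∂μ + ∫ ω, G ω ∂μ) := by
    linarith
  have hden : (0 : ℝ) < (numModes M : ℝ) + 2 := by positivity
  have hGint : ∫ ω, G ω ∂μ = ∑ x : Σ m : Fin (numModes M), Fin (mPd m),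
      (∫ ω, g (.inr x) ω ∂μ) / mPd x.1 := by
    simp only [hG]
    rw [integral_finset_sum _ fun x _ => (hgi _).div_const _]
    exact sum_congr rfl fun x _ => integral_div _ _
  have hrhs : ∑ r, seedProb (numModes M) r * ∫ ω, g r ω ∂μ =
      (∫ ω, g (.inl true) ω ∂μ + ∫ ω, g (.inl false) ω ∂μ + ∫ ω, G ω ∂μ) /
        ((numModes M : ℝ) + 2) := by
    rw [Fintype.sum_sum_type, Fintype.sum_bool, hGint, add_div, add_div, sum_div]
    simp only [seedProb, one_div, mul_inv]
    congr 1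
    · ring
    · exact sum_congr rfl fun x _ => by ring
  show _ ≤ ∑ r, seedProb (numModes M) r * ∫ ω, g r ω ∂μ
  rw [hrhs]
  calc 1 / (300 * ((numModes M : ℝ) + 2)) * ∫ ω, opt M ω.2 ∂μ
      = (∫ ω, opt M ω.2 ∂μ) / 300 / ((numModes M : ℝ) + 2) := by field_simp
    _ ≤ _ := div_le_div_of_nonneg_right (by linarith) hden.le

end Vale.Agent.P331
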