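import Vale.Agent.P331.BlockGain

/-!
# P331: the modes and their total gain, pointwise
-/

namespace Vale.Agent.P331

open Finset

variable {E : Type*} [Fintype E] [DecidableEq E]

/-- Lower end of the value window of a mode. -/
def mlo : ℕ → ℕ
  | 0 => 0
  | j + 1 => 2 * 2 ^ j

/-- Upper end of the value window of a mode. -/
def mhi : ℕ → ℕ
  | 0 => 1
  | j + 1 => 3 * 2 ^ j

/-- The period of a mode. -/
def mPd (m : ℕ) : ℕ := mhi m + 12

/-- Depth of the relevant range of levels below the largest sample. -/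
noncomputable def depth (M : Matroid E) : ℕ := Nat.clog 2 (rk M Set.univ)

/-- The number of modes. -/
noncomputable def numModes (M : Matroid E) : ℕ := Nat.log 2 (depth M) + 2

open Classical in
/-- The top level of the samples. -/
noncomputable def topLv (M : Matroid E) (ls : E → Lv) : Lv :=
  univ.sup fun e => if M.IsNonloop e then ls e else ⊥

/-- `e` is spanned by the other elements of level at least `t`. -/
def clx (M : Matroid E) (l : E → Lv) (e : E) (t : ℤ) : Prop :=
  e ∈ M.closure {f | f ≠ e ∧ (t : Lv) ≤ l f}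

/-- The flats of the samples, truncated below the relevant range. -/
noncomputable def Cs (M : Matroid E) (ls : E → Lv) (tp t : ℤ) : Set E :=
  if t ≤ tp - depth M then Set.univ else M.closure {f | (t : Lv) ≤ ls f}

/-- The rule of a mode with a shift. -/
def okMode (M : Matroid E) (ls : E → Lv) (m s : ℕ) (A : Finset (E × Lv)) (x : E × Lv) : Prop :=
  ∃ tp : ℤ, topLv M ls = tp ∧
    okBlock M (Cs M ls tp) (tp - depth M) tp (mlo m) (mhi m) s A x

/-- The set accepted by a mode with a shift. -/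
noncomputable def modeSet (M : Matroid E) (ls lV : E → Lv) (m s : ℕ)
    (σ : Fin (Fintype.card E) ≃ E) : Finset E :=
  (greedy (okMode M ls m s) ((List.ofFn σ).map fun e => (e, lV e))).image Prod.fst

variable {M : Matroid E}

lemma Cs_antitone (M : Matroid E) (hE : M.E = Set.univ) (ls : E → Lv) (tp : ℤ) :
    ∀ a b, a ≤ b → Cs M ls tp b ⊆ Cs M ls tp a := by
  intro a b hab
  unfold Cs
  by_cases ha : a ≤ tp - depth M
  · simp [ha]
  · rw [if_neg ha, if_neg (by omega)]
    exact M.closure_subset_closure fun f hf =>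
      le_trans (WithBot.coe_le_coe.2 hab) (show (b : Lv) ≤ ls f from hf)

lemma modeSet_eq {ls lV : E → Lv} {tp : ℤ} (h : topLv M ls = tp) (m s : ℕ)
    (σ : Fin (Fintype.card E) ≃ E) :
    modeSet M ls lV m s σ =
      blockSet M (Cs M ls tp) (tp - depth M) tp (mlo m) (mhi m) s lV σ := by
  have : okMode M ls m s =
      okBlock M (Cs M ls tp) (tp - depth M) tp (mlo m) (mhi m) s := by
    funext A x
    apply propext
    constructor
    · rintro ⟨t, ht, hx⟩
      obtain rfl : tp = t := WithBot.coe_inj.1 (h ▸ ht)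
      exact hx
    · exact fun hx => ⟨tp, h, hx⟩
  rw [modeSet, this, blockSet]

lemma modeSet_eq_empty {ls lV : E → Lv} (h : topLv M ls = ⊥) (m s : ℕ)
    (σ : Fin (Fintype.card E) ≃ E) : modeSet M ls lV m s σ = ∅ := by
  rw [modeSet]
  refine image_eq_empty.2 (greedy_inv (Inv := fun A => A = ∅) _ rfl ?_)
  rintro B x - - ⟨t, ht, -⟩
  rw [h] at ht
  exact absurd ht.symm WithBot.coe_ne_bot

lemma modeSet_indep (hE : M.E = Set.univ) (ls lV : E → Lv) (m s : ℕ)
    (σ : Fin (Fintype.card E) ≃ E) : M.Indep (modeSet M ls lV m s σ : Set E) := by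
  rcases h : topLv M ls with _ | tp
  · rw [modeSet_eq_empty h]; simp
  · rw [modeSet_eq h]
    exact blockSet_indep hE (by positivity) (Cs_antitone M hE ls tp) σ

lemma clx_antitone {l : E → Lv} {e : E} {a b : ℤ} (hab : a ≤ b) (h : clx M l e b) :
    clx M l e a :=
  M.closure_subset_closure (X := {f | f ≠ e ∧ (b : Lv) ≤ l f}) (Y := {f | f ≠ e ∧ (a : Lv) ≤ l f})
    (fun _ hf => ⟨hf.1, le_trans (WithBot.coe_le_coe.2 hab) hf.2⟩) h

lemma clx_mem_Cs (hE : M.E = Set.univ) {ls : E → Lv} {e : E} {tp t : ℤ}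
    (h : clx M ls e t) : e ∈ Cs M ls tp t := by
  unfold Cs
  split_ifs
  · trivial
  · exact M.closure_subset_closure (fun f hf => hf.2) h

/-- The shift putting a block at `a`. -/
def shiftOf (m : ℕ) (a : ℤ) : ℕ := (a % (mPd m : ℤ)).toNat

lemma shiftOf_lt (m : ℕ) (a : ℤ) : shiftOf m a < mPd m := by
  have hp : (0 : ℤ) < mPd m := by simp [mPd]; omega
  have := Int.emod_lt_of_pos a hp
  have := Int.emod_nonneg a hp.ne'
  unfold shiftOf
  omega

lemma blk_shiftOf (m : ℕ) {a v : ℤ} (h1 : a + mlo m ≤ v) (h2 : v < a + mlo m + mPd m) :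
    blk (mlo m) (mhi m) (shiftOf m a : ℕ) v = a := by
  have hp : (0 : ℤ) < mPd m := by simp [mPd]; omega
  have hs : ((shiftOf m a : ℕ) : ℤ) = a % (mPd m : ℤ) :=
    Int.toNat_of_nonneg (Int.emod_nonneg a hp.ne')
  have hPd : (mhi m : ℤ) + 12 = mPd m := by simp [mPd]
  refine blk_eq (by positivity) ?_ h1 (by omega)
  rw [hPd, hs]
  exact Int.dvd_self_sub_of_emod_eq rfl

lemma two_mul_pow_clog_ge (n : ℕ) : n ≤ 2 ^ Nat.clog 2 n := Nat.le_pow_clog one_lt_two n

section pointwise

variable (hE : M.E = Set.univ) {S V : E → ℝ} (hS : ∀ e, 0 ≤ S e) (hV : ∀ e, 0 ≤ V e) {tp : ℤ}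

open Classical in
/-- Elements in range that some mode can protect. -/
noncomputable def covered (M : Matroid E) (ls lV : E → Lv) (tp : ℤ) : Finset E :=
  univ.filter fun e => lV e ≠ ⊥ ∧ tp - depth M ≤ lev lV e ∧ lev lV e ≤ tp ∧
    ¬ clx M lV e (lev lV e) ∧ ∀ t : ℤ, clx M lV e t → clx M ls e t

open Classical in
/-- Elements of `I` in range that are spanned by the samples at their level. -/
noncomputable def dense (M : Matroid E) (ls lV : E → Lv) (tp : ℤ) (I : Finset E) : Finset E :=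
  I.filter fun e => lV e ≠ ⊥ ∧ tp - depth M ≤ lev lV e ∧ lev lV e ≤ tp ∧
    clx M ls e (lev lV e)

include hE in
open Classical in
lemma covered_count {ls lV : E → Lv} {e : E} (he : e ∈ covered M ls lV tp) :
    ∃ m < numModes M, mPd m ≤ 15 * ((range (mPd m)).filter fun s : ℕ =>
      e ∈ safes M (Cs M ls tp) (tp - depth M) tp (mlo m) (mhi m) s lV).card := by
  obtain ⟨h0, h1, h2, h3, h4⟩ := (mem_filter.1 he).2
  set v := lev lV e with hv
  by_cases hGv : e ∈ Cs M ls tp v
  · refine ⟨0, by simp [numModes], ?_⟩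
    have hb : blk (mlo 0) (mhi 0) (shiftOf 0 v : ℕ) v = v :=
      blk_shiftOf 0 (by simp [mlo]) (by simp [mlo, mPd, mhi])
    have : shiftOf 0 v ∈ (range (mPd 0)).filter fun s : ℕ =>
        e ∈ safes M (Cs M ls tp) (tp - depth M) tp (mlo 0) (mhi 0) s lV := by
      refine mem_filter.2 ⟨mem_range.2 (shiftOf_lt 0 v), mem_filter.2 ⟨mem_filter.2 ⟨mem_univ _,
        h0, h1, h2, ?_, ?_⟩, ?_⟩⟩
      · simp only [bl, ← hv]
        rw [hb]
        simp [mhi]
      · simp only [bl, ← hv, hb]
        exact hGv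
      · simp only [bl, ← hv]
        rw [hb]
        simpa [mlo, clx] using h3
    have := card_pos.2 ⟨_, this⟩
    simp only [mPd, mhi] at this ⊢
    omega
  · have hlow : e ∈ Cs M ls tp (tp - depth M) := by simp [Cs]
    obtain ⟨G, hG, hGmax⟩ := Int.exists_greatest_of_bdd
      (P := fun g => g ≤ v ∧ e ∈ Cs M ls tp g) ⟨v, fun g hg => hg.1⟩ ⟨_, h1, hlow⟩
    have hGlt : G < v := lt_of_le_of_ne hG.1 fun h => hGv (h ▸ hG.2)
    have hGlow : tp - depth M ≤ G := hGmax _ ⟨h1, hlow⟩
    set d := (v - G).toNat with hd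
    have hd0 : d ≠ 0 := by omega
    set j := Nat.log 2 d
    set D := 2 ^ j with hD
    have hDle : D ≤ d := Nat.pow_log_le_self 2 hd0
    have hDlt : d < 2 * D := by
      have := Nat.lt_pow_succ_log_self one_lt_two d
      rwa [pow_succ', ← hD] at this
    have hj : j + 1 < numModes M := by
      have : j ≤ Nat.log 2 (depth M) := Nat.log_mono_right (by omega)
      simp only [numModes]
      omega
    refine ⟨j + 1, hj, ?_⟩
    have hD1 : 1 ≤ D := Nat.one_le_two_pow
    have hlo' : (mlo (j + 1) : ℤ) = 2 * (D : ℤ) := by simp [mlo, hD]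
    have hhi' : (mhi (j + 1) : ℤ) = 3 * (D : ℤ) := by simp [mhi, hD]
    have hPd' : (mPd (j + 1) : ℤ) = 3 * (D : ℤ) + 12 := by simp [mPd, mhi, hD]
    have hle : (Finset.Ioc (v - 3 * (D : ℤ)) (v - 2 * (D : ℤ))).card ≤
        ((range (mPd (j + 1))).filter fun s : ℕ =>
          e ∈ safes M (Cs M ls tp) (tp - depth M) tp (mlo (j + 1)) (mhi (j + 1)) s lV).card := by
      refine card_le_card_of_injOn (shiftOf (j + 1)) ?_ ?_
      · intro a ha
        rw [mem_coe, Finset.mem_Ioc] at ha
        have hb : blk (mlo (j + 1)) (mhi (j + 1)) (shiftOf (j + 1) a : ℕ) v = a :=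
          blk_shiftOf (j + 1) (by omega) (by omega)
        refine mem_filter.2 ⟨mem_range.2 (shiftOf_lt _ a), mem_filter.2 ⟨mem_filter.2 ⟨mem_univ _,
          h0, h1, h2, ?_, ?_⟩, ?_⟩⟩
        · simp only [bl, ← hv, hb]
          omega
        · simp only [bl, ← hv, hb]
          exact Cs_antitone M hE ls tp a G (by omega) hG.2
        · simp only [bl, ← hv, hb]
          intro hcl
          by_cases hp : v ≤ a + (mlo (j + 1) : ℤ)
          · exact h3 (clx_antitone hp hcl)
          · have := hGmax (a + (mlo (j + 1) : ℤ))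
              ⟨by omega, clx_mem_Cs hE (h4 _ hcl)⟩
            omega
      · intro a ha b hb hab
        rw [mem_coe, Finset.mem_Ioc] at ha hb
        have e1 : blk (mlo (j + 1)) (mhi (j + 1)) (shiftOf (j + 1) a : ℕ) v = a :=
          blk_shiftOf (j + 1) (by omega) (by omega)
        have e2 : blk (mlo (j + 1)) (mhi (j + 1)) (shiftOf (j + 1) b : ℕ) v = b :=
          blk_shiftOf (j + 1) (by omega) (by omega)
        rw [← e1, hab, e2]
    rw [Int.card_Ioc] at hle
    have : mPd (j + 1) = 3 * D + 12 := by simp [mPd, mhi, hD]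
    omega

open Classical in
lemma dense_count {ls lV : E → Lv} (hE : M.E = Set.univ) {I : Finset E} {e : E}
    (he : e ∈ dense M ls lV tp I) :
    mPd 0 ≤ 13 * ((range (mPd 0)).filter fun s : ℕ =>
      e ∈ (cands (Cs M ls tp) (tp - depth M) tp (mlo 0) (mhi 0) s lV).filter (· ∈ I)).card := by
  obtain ⟨hI, h0, h1, h2, h3⟩ := mem_filter.1 he
  set v := lev lV e with hv
  have hb : blk (mlo 0) (mhi 0) (shiftOf 0 v : ℕ) v = v :=
    blk_shiftOf 0 (by simp [mlo]) (by simp [mlo, mPd, mhi])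
  have : shiftOf 0 v ∈ (range (mPd 0)).filter fun s : ℕ =>
      e ∈ (cands (Cs M ls tp) (tp - depth M) tp (mlo 0) (mhi 0) s lV).filter (· ∈ I) := by
    refine mem_filter.2 ⟨mem_range.2 (shiftOf_lt 0 v), mem_filter.2 ⟨mem_filter.2 ⟨mem_univ _,
      h0, h1, h2, ?_, ?_⟩, hI⟩⟩
    · simp only [bl, ← hv]
      rw [hb]
      simp [mhi]
    · simp only [bl, ← hv, hb]
      exact clx_mem_Cs hE h3
  have := card_pos.2 ⟨_, this⟩
  simp only [mPd, mhi] at this ⊢
  omega

lemma sum_inv_mPd_le (n : ℕ) : ∑ m ∈ range n, (1 : ℝ) / mPd m ≤ 1 := by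
  cases n with
  | zero => simp
  | succ n =>
    rw [sum_range_succ']
    have h1 : ∑ k ∈ range n, (1 : ℝ) / mPd (k + 1) ≤ ∑ k ∈ range n, (1 / 2 : ℝ) ^ k * (1 / 3) := by
      refine sum_le_sum fun k _ => ?_
      rw [one_div_pow, div_mul_div_comm, one_mul]
      refine one_div_le_one_div_of_le (by positivity) ?_
      simp only [mPd, mhi]
      push_cast
      linarith
    have h2 : ∑ k ∈ range n, (1 / 2 : ℝ) ^ k ≤ 2 := sum_geometric_two_le n
    have h0 : (1 : ℝ) / mPd 0 = 1 / 13 := by norm_num [mPd, mhi]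
    rw [← sum_mul] at h1
    linarith

include hE hS hV in
open Classical in
lemma mode_gain (htp : topLv M (fun e => lvl (S e)) = tp) {I : Finset E}
    (hI : M.Indep (I : Set E)) (m s : ℕ) (σ : Fin (Fintype.card E) ≃ E) :
    (∑ e ∈ safes M (Cs M (fun e => lvl (S e)) tp) (tp - depth M) tp (mlo m) (mhi m) s
        (fun e => lvl (V e)), V e) / 2 +
      (if m = 0 then (∑ e ∈ (cands (Cs M (fun e => lvl (S e)) tp) (tp - depth M) tp (mlo m)
        (mhi m) s (fun e => lvl (V e))).filter (· ∈ I), V e) / 4 else 0) ≤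
      ∑ e ∈ modeSet M (fun e => lvl (S e)) (fun e => lvl (V e)) m s σ, V e +
        blockLoss M (Cs M (fun e => lvl (S e)) tp) (tp - depth M) tp (mlo m) (mhi m) s
          (fun e => lvl (V e)) := by
  rw [modeSet_eq htp]
  have hhi : (0 : ℤ) ≤ mhi m := by positivity
  have h1 := blockSet_safe_gain (C := Cs M (fun e => lvl (S e)) tp) (low := tp - depth M)
    (top := tp) (lo := mlo m) (s := (s : ℤ)) hE hV hhi σ
  have hA : 0 ≤ ∑ e ∈ blockSet M (Cs M (fun e => lvl (S e)) tp) (tp - depth M) tp (mlo m) (mhi m) s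
      (fun e => lvl (V e)) σ, V e := sum_nonneg fun e _ => hV e
  have hL : 0 ≤ blockLoss M (Cs M (fun e => lvl (S e)) tp) (tp - depth M) tp (mlo m) (mhi m) s
      (fun e => lvl (V e)) := sum_nonneg fun a _ => by positivity
  split_ifs with hm
  · subst hm
    have h2 := blockSet_indep_gain (C := Cs M (fun e => lvl (S e)) tp) (low := tp - depth M)
      (top := tp) (lo := mlo 0) (s := (s : ℤ)) hE hV hhi σ (by simp [mlo, mhi]) hI
    linarith
  · linarith

include hE hS in
open Classical in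
lemma mode_loss (m : ℕ) (lV : E → Lv) :
    ∑ s ∈ range (mPd m), blockLoss M (Cs M (fun e => lvl (S e)) tp) (tp - depth M) tp
      (mlo m) (mhi m) s lV ≤ opt M S / 2048 := by
  set C := Cs M (fun e => lvl (S e)) tp with hC
  set low := tp - (depth M : ℤ) with hlow
  set U : ℕ → Finset ℤ := fun s =>
    (cands C low tp (mlo m) (mhi m) s lV).image (bl (mlo m) (mhi m) s lV)
  have hPd : (mhi m : ℤ) + 12 = mPd m := by simp [mPd]
  have hmem : ∀ s, ∀ a ∈ U s, a ∈ Finset.Ioc (low - mhi m) (tp - mlo m) ∧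
      (mPd m : ℤ) ∣ a - (s : ℤ) := by
    intro s a ha
    obtain ⟨e, he, rfl⟩ := mem_image.1 ha
    obtain ⟨-, h1, h2, h3, -⟩ := (mem_filter.1 he).2
    have hb := (blk_le (lo := (mlo m : ℤ)) (hi := (mhi m : ℤ)) (s := (s : ℤ)) (by positivity)
      (lev lV e)).1
    refine ⟨?_, ?_⟩
    · simp only [bl, Finset.mem_Ioc] at h3 ⊢
      omega
    · rw [← hPd]
      exact blk_dvd _
  have hdisj : ((range (mPd m) : Finset ℕ) : Set ℕ).PairwiseDisjoint U := by
    intro s hs t ht hst
    rw [Function.onFun, disjoint_left]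
    intro a has hat
    have h := dvd_sub (hmem s a has).2 (hmem t a hat).2
    simp only [sub_sub_sub_cancel_left] at h
    have h' := Int.eq_zero_of_abs_lt_dvd h (by
      simp only [coe_range, Set.mem_Iio] at hs ht
      rw [abs_lt]; omega)
    omega
  have hsub : (range (mPd m)).biUnion U ⊆ Finset.Ioc (low - mhi m) (tp - mlo m) := by
    intro a ha
    obtain ⟨s, _, hs⟩ := mem_biUnion.1 ha
    exact (hmem s a hs).1
  set T : Finset ℤ := (Finset.Ioc (low - mhi m) (tp - mlo m)).image (· + ((mhi m : ℤ) + 12))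
  calc ∑ s ∈ range (mPd m), blockLoss M C low tp (mlo m) (mhi m) s lV
      = ∑ a ∈ (range (mPd m)).biUnion U,
          (2 : ℝ) ^ (a + (mhi m : ℤ)) * rk M (C (a + ((mhi m : ℤ) + 12))) := by
        rw [sum_biUnion hdisj]; rfl
    _ ≤ ∑ a ∈ Finset.Ioc (low - mhi m) (tp - mlo m),
          (2 : ℝ) ^ (a + (mhi m : ℤ)) * rk M (C (a + ((mhi m : ℤ) + 12))) :=
        sum_le_sum_of_subset_of_nonneg hsub fun a _ _ => by positivity
    _ = ∑ t ∈ T, (2 : ℝ) ^ t * rk M {f | (2 : ℝ) ^ t ≤ S f} / 4096 := by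
        rw [sum_image (by intro a _ b _ h; simpa using h)]
        refine sum_congr rfl fun a ha => ?_
        rw [Finset.mem_Ioc] at ha
        have hnot : ¬ a + ((mhi m : ℤ) + 12) ≤ tp - depth M := by omega
        have hset : {f | ((a + ((mhi m : ℤ) + 12) : ℤ) : Lv) ≤ lvl (S f)} =
            {f | (2 : ℝ) ^ (a + ((mhi m : ℤ) + 12)) ≤ S f} := Set.ext fun f => coe_le_lvl
        rw [hC, Cs, if_neg hnot, rk_closure, hset]
        generalize (rk M {f | (2 : ℝ) ^ (a + ((mhi m : ℤ) + 12)) ≤ S f} : ℝ) = R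
        have h12 : (2 : ℝ) ^ (a + ((mhi m : ℤ) + 12)) = (2 : ℝ) ^ (a + (mhi m : ℤ)) * 4096 := by
          rw [← add_assoc, zpow_add₀ (two_ne_zero : (2 : ℝ) ≠ 0)]
          norm_num
        rw [h12]
        ring
    _ ≤ opt M S / 2048 := by
        rw [← sum_div]
        linarith [layers_le_opt hE S hS T]

include hE hS hV in
open Classical in
/-- The total gain of all modes, each averaged over its shifts. -/
lemma modes_gain (htp : topLv M (fun e => lvl (S e)) = tp) {I : Finset E}
    (hI : M.Indep (I : Set E)) (σ : ℕ → ℕ → Fin (Fintype.card E) ≃ E) :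
    (∑ e ∈ covered M (fun e => lvl (S e)) (fun e => lvl (V e)) tp, V e +
      ∑ e ∈ dense M (fun e => lvl (S e)) (fun e => lvl (V e)) tp I, V e) / 60 ≤
    ∑ m ∈ range (numModes M), (∑ s ∈ range (mPd m),
        ∑ e ∈ modeSet M (fun e => lvl (S e)) (fun e => lvl (V e)) m s (σ m s), V e) / mPd m +
      opt M S / 2048 := by
  set ls : E → Lv := fun e => lvl (S e)
  set lV : E → Lv := fun e => lvl (V e)
  set Z : ℕ → ℕ → Finset E := fun m s =>
    safes M (Cs M ls tp) (tp - depth M) tp (mlo m) (mhi m) s lV with hZ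
  set J : ℕ → Finset E := fun s =>
    (cands (Cs M ls tp) (tp - depth M) tp (mlo 0) (mhi 0) s lV).filter (· ∈ I) with hJ
  have hswap : ∀ (n : ℕ) (Y : ℕ → Finset E), ∑ s ∈ range n, ∑ e ∈ Y s, V e =
      ∑ e, ((range n).filter fun s => e ∈ Y s).card * V e := by
    intro n Y
    rw [sum_comm' (t' := univ) (s' := fun e => (range n).filter fun s => e ∈ Y s) (by simp)]
    exact sum_congr rfl fun e _ => by rw [sum_const, nsmul_eq_mul]
  have hZcount : (∑ e ∈ covered M ls lV tp, V e) / 15 ≤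
      ∑ m ∈ range (numModes M), (∑ s ∈ range (mPd m), ∑ e ∈ Z m s, V e) / mPd m := by
    simp only [hswap, sum_div]
    rw [sum_comm]
    refine le_trans (sum_le_sum fun e he => ?_)
      (sum_le_sum_of_subset_of_nonneg (subset_univ _) fun e _ _ =>
        sum_nonneg fun m _ => div_nonneg (mul_nonneg (Nat.cast_nonneg _) (hV e)) (Nat.cast_nonneg _))
    obtain ⟨m, hm, hcount⟩ := covered_count (M := M) hE he
    refine le_trans ?_ (single_le_sum (fun m _ => div_nonneg (mul_nonneg (Nat.cast_nonneg _) (hV e))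
      (Nat.cast_nonneg _)) (mem_range.2 hm))
    have hp : (0 : ℝ) < mPd m := by simp only [mPd]; positivity
    have hc : (mPd m : ℝ) ≤ 15 * (((range (mPd m)).filter fun s => e ∈ Z m s).card : ℝ) := by
      exact_mod_cast hcount
    rw [div_le_div_iff₀ (by norm_num) hp]
    nlinarith [mul_le_mul_of_nonneg_right hc (hV e)]
  have hJcount : (∑ e ∈ dense M ls lV tp I, V e) / 13 ≤
      (∑ s ∈ range (mPd 0), ∑ e ∈ J s, V e) / mPd 0 := by
    simp only [hswap, sum_div]
    refine le_trans (sum_le_sum fun e he => ?_)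
      (sum_le_sum_of_subset_of_nonneg (subset_univ _) fun e _ _ =>
        div_nonneg (mul_nonneg (Nat.cast_nonneg _) (hV e)) (Nat.cast_nonneg _))
    have hcount := dense_count hE he
    have hp : (0 : ℝ) < mPd 0 := by simp only [mPd]; positivity
    have hc : (mPd 0 : ℝ) ≤ 13 * (((range (mPd 0)).filter fun s => e ∈ J s).card : ℝ) := by
      exact_mod_cast hcount
    rw [div_le_div_iff₀ (by norm_num) hp]
    nlinarith [mul_le_mul_of_nonneg_right hc (hV e)]
  have hmode : ∀ m ∈ range (numModes M),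
      (∑ s ∈ range (mPd m), ∑ e ∈ Z m s, V e) / mPd m / 2 +
        (if m = 0 then (∑ s ∈ range (mPd 0), ∑ e ∈ J s, V e) / mPd 0 / 4 else 0) ≤
      (∑ s ∈ range (mPd m), ∑ e ∈ modeSet M ls lV m s (σ m s), V e) / mPd m +
        opt M S / 2048 * (1 / mPd m) := by
    intro m _
    have h1 := sum_le_sum (s := range (mPd m)) fun s _ => mode_gain hE hS hV htp hI m s (σ m s)
    have h2 : ∑ s ∈ range (mPd m), blockLoss M (Cs M ls tp) (tp - depth M) tp (mlo m) (mhi m) s
        lV ≤ opt M S / 2048 := mode_loss hE hS m _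
    simp only [sum_add_distrib, ← sum_div] at h1
    have hp : (0 : ℝ) < mPd m := by simp only [mPd]; positivity
    by_cases hm : m = 0
    · subst hm
      simp only [↓reduceIte, ← sum_div] at h1 ⊢
      field_simp
      simp only [hZ, hJ]
      linarith
    · simp only [hm, ↓reduceIte, sum_const_zero, add_zero] at h1 ⊢
      field_simp
      simp only [hZ]
      linarith
  have hsum := sum_le_sum hmode
  rw [sum_add_distrib, sum_add_distrib, sum_ite_eq' (range (numModes M)) 0
    (fun _ => (∑ s ∈ range (mPd 0), ∑ e ∈ J s, V e) / mPd 0 / 4),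
    if_pos (mem_range.2 (by simp [numModes])), ← mul_sum, ← sum_div] at hsum
  have hG : 0 ≤ ∑ e ∈ covered M ls lV tp, V e := sum_nonneg fun e _ => hV e
  have hD : 0 ≤ ∑ e ∈ dense M ls lV tp I, V e := sum_nonneg fun e _ => hV e
  have hO := opt_nonneg M S
  have := mul_le_of_le_one_right (div_nonneg hO (by norm_num : (0 : ℝ) ≤ 2048))
    (sum_inv_mPd_le (numModes M))
  linarith

end pointwise

end Vale.Agent.P331
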