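import Mathlib

/-!
# P331: natural-valued rank, and the two block lemmas
-/

namespace Vale.Agent.P331

open Set

variable {E : Type*} [Fintype E] {M : Matroid E} {X Y C A P Z : Set E} {e : E}

/-- Natural-valued rank. -/
noncomputable def rk (M : Matroid E) (X : Set E) : ℕ := (M.eRk X).toNat

lemma coe_rk (M : Matroid E) (X : Set E) : (rk M X : ℕ∞) = M.eRk X := by
  apply ENat.coe_toNat
  exact Matroid.eRk_ne_top_iff.2 (M.isRkFinite_of_finite X.toFinite)

lemma rk_mono (M : Matroid E) (h : X ⊆ Y) : rk M X ≤ rk M Y := by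
  have := M.eRk_mono h
  rw [← coe_rk, ← coe_rk] at this
  exact_mod_cast this

lemma rk_submod (M : Matroid E) (X Y : Set E) :
    rk M (X ∩ Y) + rk M (X ∪ Y) ≤ rk M X + rk M Y := by
  have := M.eRk_inter_add_eRk_union_le X Y
  simp only [← coe_rk] at this
  exact_mod_cast this

lemma rk_closure (M : Matroid E) (X : Set E) : rk M (M.closure X) = rk M X := by
  simp [rk]

lemma rk_le_ncard (M : Matroid E) (X : Set E) : rk M X ≤ X.ncard := by
  have := M.eRk_le_encard X
  rw [← coe_rk, ← X.toFinite.cast_ncard_eq] at this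
  exact_mod_cast this

lemma indep_iff_rk : M.Indep X ↔ rk M X = X.ncard := by
  rw [M.indep_iff_eRk_eq_encard_of_finite X.toFinite, ← coe_rk, ← X.toFinite.cast_ncard_eq,
    Nat.cast_inj]

lemma rk_insert_of_notMem (heE : e ∈ M.E) (he : e ∉ M.closure X) :
    rk M (insert e X) = rk M X + 1 := by
  have := M.eRk_insert_eq_add_one ⟨heE, he⟩
  rw [← coe_rk, ← coe_rk] at this
  exact_mod_cast this

lemma subset_closure' (hE : M.E = univ) (X : Set E) : X ⊆ M.closure X :=
  M.subset_closure X (by simp [hE])

/-- `A` is independent over `C`. -/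
def IndepOver (M : Matroid E) (C A : Set E) : Prop := rk M (C ∪ A) = rk M C + A.ncard

lemma indepOver_empty (M : Matroid E) (C : Set E) : IndepOver M C ∅ := by
  simp [IndepOver]

lemma IndepOver.insert (hE : M.E = univ) (h : IndepOver M C A) (he : e ∉ M.closure (C ∪ A)) :
    IndepOver M C (insert e A) := by
  have h1 : e ∉ A := fun hA => he (subset_closure' hE _ (Or.inr hA))
  unfold IndepOver at *
  rw [Set.union_insert, rk_insert_of_notMem (by simp [hE]) he, h,
    Set.ncard_insert_of_notMem h1 A.toFinite]
  ring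

/-- An independent set inside `C` together with a set independent over `C` is independent. -/
lemma IndepOver.union_indep (h : IndepOver M C A) (hY : M.Indep Y) (hYC : Y ⊆ C) :
    M.Indep (Y ∪ A) := by
  rw [indep_iff_rk] at hY ⊢
  have h1 := rk_submod M C (Y ∪ A)
  have h2 : Y ⊆ C ∩ (Y ∪ A) := subset_inter hYC subset_union_left
  have h3 := rk_mono M h2
  have h4 : C ∪ (Y ∪ A) = C ∪ A := by
    rw [← union_assoc, union_eq_left.2 hYC]
  rw [h4, h] at h1
  have h5 := rk_le_ncard M (Y ∪ A)
  have h6 := ncard_union_le Y A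
  omega

lemma rk_remove_coloops (hE : M.E = univ) (T : Finset E)
    (hTP : (T : Set E) ⊆ P) (hT : ∀ z ∈ T, z ∉ M.closure (P \ {z})) :
    rk M P = rk M (P \ (T : Set E)) + T.card := by
  classical
  induction T using Finset.induction_on with
  | empty => simp
  | insert z T hz ih =>
    have hsub : (T : Set E) ⊆ P := fun x hx => hTP (by simp [Finset.mem_coe.1 hx])
    have hzP : z ∈ P := hTP (by simp)
    have hcl : z ∉ M.closure (P \ ((insert z T : Finset E) : Set E)) := by
      intro hmem
      refine hT z (by simp) (M.closure_subset_closure ?_ hmem)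
      intro x hx
      simp at hx ⊢
      exact ⟨hx.1, hx.2.1⟩
    have heq : P \ (T : Set E) = insert z (P \ ((insert z T : Finset E) : Set E)) := by
      ext x
      simp only [mem_sdiff, Finset.coe_insert, mem_insert_iff, Finset.mem_coe]
      constructor
      · intro h
        by_cases hxz : x = z
        · exact Or.inl hxz
        · exact Or.inr ⟨h.1, by tauto⟩
      · rintro (rfl | h)
        · exact ⟨hzP, hz⟩
        · exact ⟨h.1, fun hx => h.2 (Or.inr hx)⟩
    rw [ih hsub (fun x hx => hT x (by simp [hx])), heq,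
      rk_insert_of_notMem (by simp [hE]) hcl, Finset.card_insert_of_notMem hz]
    ring

lemma rk_le_of_spanned (hspan : ∀ x ∈ P, x ∈ M.closure (C ∪ A)) (hA : IndepOver M C A) :
    rk M P ≤ rk M C + A.ncard := by
  rw [← hA, ← rk_closure M (C ∪ A)]
  exact rk_mono M hspan

/-- Elements outside the closure of the rest of `P` are lost by a maximal subset of `P`
independent over `C` at most `rk C` times. -/
lemma card_lost_le [DecidableEq E] (hE : M.E = univ) {P Z A : Finset E}
    (hZP : Z ⊆ P) (hAP : A ⊆ P) (hA : IndepOver M C (A : Set E))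
    (hspan : ∀ x ∈ P, x ∈ M.closure (C ∪ (A : Set E)))
    (hZ : ∀ z ∈ Z, z ∉ M.closure ((P : Set E) \ {z})) :
    (Z \ A).card ≤ rk M C := by
  have h1 := rk_remove_coloops (P := (P : Set E)) hE (Z \ A)
    (by exact_mod_cast Finset.sdiff_subset.trans hZP)
    (fun z hz => hZ z (Finset.mem_sdiff.1 hz).1)
  have h2 : (A : Set E) ⊆ (P : Set E) \ ((Z \ A : Finset E) : Set E) := by
    intro x hx
    refine ⟨hAP hx, ?_⟩
    simp at hx ⊢
    tauto
  have h3 := rk_mono M h2
  have h4 := rk_le_of_spanned (P := (P : Set E)) hspan hA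
  have hind : rk M (A : Set E) = A.card := by
    have hle := rk_le_ncard M (A : Set E)
    have hs := rk_submod M C (A : Set E)
    have : rk M (C ∪ (A : Set E)) = rk M C + (A : Set E).ncard := hA
    simp only [Set.ncard_coe_finset] at hle this
    omega
  simp only [Set.ncard_coe_finset] at h4
  omega

/-- A maximal subset of `P` independent over `C` has at least `|I| - rk C` elements. -/
lemma card_indep_le {P I A : Finset E}
    (hIP : I ⊆ P) (hI : M.Indep (I : Set E)) (hA : IndepOver M C (A : Set E))
    (hspan : ∀ x ∈ P, x ∈ M.closure (C ∪ (A : Set E))) :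
    I.card ≤ A.card + rk M C := by
  have h1 := rk_le_of_spanned (P := (P : Set E)) hspan hA
  have h2 := rk_mono M (show (I : Set E) ⊆ (P : Set E) by exact_mod_cast hIP)
  rw [indep_iff_rk.1 hI] at h2
  simp only [Set.ncard_coe_finset] at h1 h2
  omega

end Vale.Agent.P331
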