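import Vale.Agent.P331.Modes

/-!
# P331: the single-item rules, and the elements outside the range of levels
-/

namespace Vale.Agent.P331

open Finset

variable {E : Type*} [Fintype E] [DecidableEq E] {M : Matroid E}

open Classical in
/-- The largest sample (at least `0`) of a non-loop. -/
noncomputable def mx (M : Matroid E) (S : E → ℝ) : ℝ :=
  (univ : Finset (Option E)).sup' univ_nonempty
    fun o => o.elim 0 fun e => if M.IsNonloop e then S e else 0

lemma mx_nonneg (M : Matroid E) (S : E → ℝ) : 0 ≤ mx M S := by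
  classical
  exact le_sup' (fun o : Option E => o.elim 0 fun e => if M.IsNonloop e then S e else 0)
    (mem_univ none)

lemma le_mx {S : E → ℝ} {e : E} (he : M.IsNonloop e) : S e ≤ mx M S := by
  classical
  unfold mx
  exact (le_sup'_iff univ_nonempty).2 ⟨some e, mem_univ _, by simp [he]⟩

lemma mx_le {S : E → ℝ} {x : ℝ} (hx : 0 ≤ x) (h : ∀ e, M.IsNonloop e → S e ≤ x) :
    mx M S ≤ x := by
  classical
  refine sup'_le _ _ fun o _ => ?_
  cases o with
  | none => exact hx
  | some e =>
    by_cases he : M.IsNonloop e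
    · simpa [he] using h e he
    · simpa [he] using hx

lemma mx_le_opt (M : Matroid E) (S : E → ℝ) : mx M S ≤ opt M S :=
  mx_le (opt_nonneg M S) fun _ he => le_opt he

lemma topLv_lvl (M : Matroid E) (S : E → ℝ) :
    topLv M (fun e => lvl (S e)) = lvl (mx M S) := by
  classical
  refine le_antisymm (Finset.sup_le fun e _ => ?_) ?_
  · by_cases he : M.IsNonloop e
    · simpa [he] using lvl_mono (le_mx he)
    · simp [he]
  · obtain ⟨o, -, ho⟩ := exists_mem_eq_sup' (s := (univ : Finset (Option E))) univ_nonempty
      fun o => o.elim 0 fun e => if M.IsNonloop e then S e else 0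
    have ho' : mx M S = _ := ho
    rw [ho']
    cases o with
    | none => simp [lvl]
    | some e =>
      by_cases he : M.IsNonloop e
      · refine le_trans ?_ (le_sup (f := fun e => if M.IsNonloop e then lvl (S e) else ⊥)
          (mem_univ e))
        simp [he]
      · simp [he, lvl]

open Classical in
/-- Which values the single-item rule with bit `b` takes. -/
noncomputable def encS (M : Matroid E) (b : Bool) (S : E → ℝ) (w : ℝ) : Bool :=
  decide (if b then mx M S < w else mx M S ≤ w)

/-- Take the first qualifying non-loop. -/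
def okSingle (M : Matroid E) (A : Finset (E × Bool)) (x : E × Bool) : Prop :=
  A = ∅ ∧ x.2 = true ∧ M.IsNonloop x.1

/-- The set accepted by the single-item rule, given which elements qualify. -/
noncomputable def singleSet (M : Matroid E) (q : E → Bool) (σ : Fin (Fintype.card E) ≃ E) :
    Finset E :=
  (greedy (okSingle M) ((List.ofFn σ).map fun e => (e, q e))).image Prod.fst

lemma singleSet_spec (q : E → Bool) (σ : Fin (Fintype.card E) ≃ E) :
    (singleSet M q σ = ∅ ∧ ∀ e, M.IsNonloop e → q e = false) ∨
      ∃ e, M.IsNonloop e ∧ q e = true ∧ singleSet M q σ = {e} := by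
  classical
  set l := (List.ofFn σ).map fun e => (e, q e) with hl
  have hinv : greedy (okSingle M) l = ∅ ∨
      ∃ x, greedy (okSingle M) l = {x} ∧ x ∈ l ∧ x.2 = true ∧ M.IsNonloop x.1 := by
    refine greedy_inv (Inv := fun A => A = ∅ ∨
      ∃ x, A = {x} ∧ x ∈ l ∧ x.2 = true ∧ M.IsNonloop x.1) l (Or.inl rfl) ?_
    rintro B x hx - ⟨rfl, h1, h2⟩
    exact Or.inr ⟨x, by simp, hx, h1, h2⟩
  rcases hinv with h | ⟨x, h, hx, h1, h2⟩
  · refine Or.inl ⟨by rw [singleSet, ← hl, h]; simp, fun e he => ?_⟩
    have hmem : (e, q e) ∈ l := List.mem_map.2 ⟨e, mem_orderList σ e, rfl⟩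
    rcases greedy_spec (ok := okSingle M) hmem with h' | ⟨B, hB, hno⟩
    · rw [h] at h'; simp at h'
    · rw [h, subset_empty] at hB
      simp only [okSingle, hB, true_and, not_and] at hno
      by_contra hq
      exact hno (by simpa using hq) he
  · refine Or.inr ⟨x.1, h2, ?_, by rw [singleSet, ← hl, h]; simp⟩
    obtain ⟨e, -, rfl⟩ := List.mem_map.1 hx
    exact h1

lemma singleSet_indep (q : E → Bool) (σ : Fin (Fintype.card E) ≃ E) :
    M.Indep (singleSet M q σ : Set E) := by
  rcases singleSet_spec (M := M) q σ with ⟨h, -⟩ | ⟨e, he, -, h⟩ <;> rw [h]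
  · simp
  · simpa using he.indep

lemma singleSet_gain {q : E → Bool} {σ : Fin (Fintype.card E) ≃ E} {V : E → ℝ} {x : ℝ}
    {e : E} (he : M.IsNonloop e) (hq : q e = true)
    (hx : ∀ g, M.IsNonloop g → q g = true → x ≤ V g) :
    x ≤ ∑ f ∈ singleSet M q σ, V f := by
  rcases singleSet_spec (M := M) q σ with ⟨-, h⟩ | ⟨g, hg, hqg, h⟩
  · rw [h e he] at hq; simp at hq
  · rw [h, sum_singleton]; exact hx g hg hqg

/-- The sum of what the two single-item rules get, when the largest pooled value is a value and the
second largest is a sample. -/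
lemma two_single_gain {S V : E → ℝ} (hS : ∀ g, 0 ≤ S g) (hV : ∀ g, 0 ≤ V g) {e f : E}
    (he : M.IsNonloop e) (hf : M.IsNonloop f)
    (htop : ∀ g, M.IsNonloop g → max (S g) (V g) ≤ V e)
    (hsec : ∀ g, M.IsNonloop g → g ≠ e → f ≠ e ∧ max (S g) (V g) ≤ S f)
    (σ σ' : Fin (Fintype.card E) ≃ E) :
    V e ≤ ∑ g ∈ singleSet M (fun g => encS M true S (V g)) σ, V g +
      ∑ g ∈ singleSet M (fun g => encS M false S (V g)) σ', V g := by
  have hle : mx M S ≤ V e := mx_le (hV e) fun g hg => (le_max_left _ _).trans (htop g hg)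
  rcases hle.lt_or_eq with hlt | heq
  · refine le_add_of_le_of_nonneg (singleSet_gain he (by simp [encS, hlt]) ?_)
      (sum_nonneg fun g _ => hV g)
    intro g hg hq
    by_contra hc
    have hge : g ≠ e := fun h => hc (h ▸ le_refl _)
    simp only [encS, ↓reduceIte, decide_eq_true_eq] at hq
    have := (le_max_right _ _).trans (hsec g hg hge).2
    linarith [le_mx (S := S) hf]
  · refine le_add_of_nonneg_of_le (sum_nonneg fun g _ => hV g)
      (singleSet_gain he (by simp [encS, heq]) ?_)
    intro g _ hq
    simp only [encS, Bool.false_eq_true, ↓reduceIte, decide_eq_true_eq] at hq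
    linarith

open Classical in
/-- Elements that are not spanned by the others at their level or above are independent. -/
lemma notSpanned_indep (hE : M.E = Set.univ) {lV : E → Lv} (J : Finset E)
    (hJ : ∀ e ∈ J, lV e ≠ ⊥ ∧ ¬ clx M lV e (lev lV e)) : M.Indep (J : Set E) := by
  induction J using Finset.induction_on_min_value (lev lV) with
  | empty => simp
  | insert a J ha hmin ih =>
    have ih' := ih fun e he => hJ e (mem_insert_of_mem he)
    rw [coe_insert, ih'.insert_indep_iff]
    refine Or.inl ⟨by simp [hE], fun hcl => (hJ a (mem_insert_self a J)).2 ?_⟩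
    refine M.closure_subset_closure ?_ hcl
    intro f hf
    have hfJ : f ∈ J := hf
    refine ⟨fun h => ha (h ▸ hfJ), ?_⟩
    obtain ⟨v, hv⟩ := WithBot.ne_bot_iff_exists.1 (hJ f (mem_insert_of_mem hfJ)).1
    rw [← hv, WithBot.coe_le_coe]
    simpa [lev, ← hv] using hmin f hfJ

open Classical in
/-- What an independent set holds outside the range of levels. -/
lemma outside_le {S V : E → ℝ} (hV : ∀ e, 0 ≤ V e) {J : Finset E} (hJ : M.Indep (J : Set E))
    (inRange : E → Prop)
    (hin : ∀ e, ∀ tp v : ℤ, lvl (mx M S) = tp → lvl (V e) = v → tp - depth M ≤ v → v ≤ tp →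
      inRange e) :
    ∑ e ∈ J.filter (fun e => ¬ inRange e), V e ≤
      (∑ e ∈ univ.filter (fun e => M.IsNonloop e ∧ mx M S < V e), V e) + mx M S := by
  set X := J.filter fun e => ¬ inRange e
  rw [← sum_filter_add_sum_filter_not X fun e => mx M S < V e]
  refine add_le_add (sum_le_sum_of_subset_of_nonneg ?_ fun e _ _ => hV e) ?_
  · intro e he
    simp only [X, mem_filter] at he ⊢
    exact ⟨mem_univ e, hJ.isNonloop_of_mem he.1.1, he.2⟩
  · set B := X.filter fun e => ¬ mx M S < V e
    rcases htp : lvl (mx M S) with _ | tp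
    · have h0 : mx M S ≤ 0 := lvl_eq_bot.1 htp
      calc ∑ e ∈ B, V e ≤ ∑ e ∈ B, (0 : ℝ) := sum_le_sum fun e he => by
            linarith [not_lt.1 (mem_filter.1 he).2]
        _ ≤ mx M S := by simpa using mx_nonneg M S
    · have hpt : ∀ e ∈ B, V e ≤ (2 : ℝ) ^ (tp - depth M) := by
        intro e he
        rcases hv : lvl (V e) with _ | v
        · exact (lvl_eq_bot.1 hv).trans (by positivity)
        · obtain ⟨hX, hle⟩ := mem_filter.1 he
          have hvt : v ≤ tp := WithBot.coe_le_coe.1 <| show (v : Lv) ≤ (tp : Lv) from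
            (hv.symm.le.trans (lvl_mono (not_lt.1 hle))).trans htp.le
          have hlow : v < tp - depth M := by
            by_contra hc
            exact (mem_filter.1 hX).2 (hin e tp v htp hv (not_lt.1 hc) hvt)
          exact (lvl_bounds hv).2.le.trans (zpow_le_zpow_right₀ one_le_two (by omega))
      have hcard : B.card ≤ rk M Set.univ := by
        have hsub : B ⊆ J := (filter_subset _ _).trans (filter_subset _ _)
        have := indep_iff_rk.1 (hJ.subset (show (B : Set E) ⊆ J by exact_mod_cast hsub))
        rw [Set.ncard_coe_finset] at this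
        rw [← this]
        exact rk_mono M (Set.subset_univ _)
      calc ∑ e ∈ B, V e ≤ B.card • (2 : ℝ) ^ (tp - depth M) := sum_le_card_nsmul _ _ _ hpt
        _ ≤ ((2 ^ depth M : ℕ) : ℝ) * (2 : ℝ) ^ (tp - depth M) := by
          rw [nsmul_eq_mul]
          gcongr
          exact hcard.trans (two_mul_pow_clog_ge _)
        _ = (2 : ℝ) ^ tp := by
          push_cast
          rw [← zpow_natCast, ← zpow_add₀ (two_ne_zero)]
          congr 1
          ring
        _ ≤ mx M S := (lvl_bounds htp).1

open Classical in
/-- At most one element beats every other sample. -/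
lemma sum_beat_le (M : Matroid E) {S V : E → ℝ} (hS : ∀ e, 0 ≤ S e) :
    ∑ e ∈ univ.filter (fun e => M.IsNonloop e ∧ mx M (Function.update S e (V e)) < S e), S e ≤
      mx M S := by
  set X := univ.filter fun e => M.IsNonloop e ∧ mx M (Function.update S e (V e)) < S e
  have hone : ∀ a ∈ X, ∀ b ∈ X, a = b := by
    intro a ha b hb
    by_contra hab
    simp only [X, mem_filter, mem_univ, true_and] at ha hb
    have h1 := le_mx (M := M) (S := Function.update S a (V a)) hb.1
    have h2 := le_mx (M := M) (S := Function.update S b (V b)) ha.1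
    rw [Function.update_of_ne (Ne.symm hab)] at h1
    rw [Function.update_of_ne hab] at h2
    linarith
  rcases X.eq_empty_or_nonempty with h | ⟨a, ha⟩
  · rw [h, sum_empty]; exact mx_nonneg M S
  · rw [eq_singleton_iff_unique_mem.2 ⟨ha, fun b hb => hone b hb a ha⟩, sum_singleton]
    exact le_mx (mem_filter.1 ha).2.1

end Vale.Agent.P331
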