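import Vale.Agent.P331.Single

/-!
# P331: exchanging samples and values; measurability; integrability
-/

namespace Vale.Agent.P331

open Finset MeasureTheory

/-- Levels carry the discrete structure. -/
instance lvMeasurableSpace : MeasurableSpace Lv := ⊤

instance lvDiscrete : DiscreteMeasurableSpace Lv := ⟨fun _ => trivial⟩

lemma measurable_lvl : Measurable lvl := by
  refine measurable_to_countable' fun x => ?_
  rcases x with _ | v
  · have : lvl ⁻¹' {⊥} = Set.Iic (0 : ℝ) := Set.ext fun w => lvl_eq_bot
    exact this ▸ measurableSet_Iic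
  · have : lvl ⁻¹' {(v : Lv)} = Set.Ico ((2 : ℝ) ^ v) ((2 : ℝ) ^ (v + 1)) := by
      ext w
      refine ⟨fun h => lvl_bounds h, fun h => ?_⟩
      have h1 := coe_le_lvl.2 h.1
      have h2 : ¬ ((v + 1 : ℤ) : Lv) ≤ lvl w := fun hc => absurd (coe_le_lvl.1 hc) (not_le.2 h.2)
      rcases hw : lvl w with _ | u
      · rw [hw] at h1
        exact absurd (le_bot_iff.1 (show (v : Lv) ≤ (⊥ : Lv) from h1)) WithBot.coe_ne_bot
      · have hu : (lvl w) = (u : Lv) := hw
        rw [hu, WithBot.coe_le_coe] at h1 h2
        change lvl w = (v : Lv)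
        rw [hu]
        congr 1
        omega
    exact this ▸ measurableSet_Ico

variable {E : Type*} [Fintype E] [DecidableEq E] {M : Matroid E}

/-- (samples, values). -/
abbrev Ω (E : Type*) := (E → ℝ) × (E → ℝ)

/-- Exchange sample and value where `T` is true. -/
def sw (T : E → Bool) (ω : Ω E) : Ω E :=
  (fun i => if T i then ω.2 i else ω.1 i, fun i => if T i then ω.1 i else ω.2 i)

lemma sw_sw (T : E → Bool) (ω : Ω E) : sw T (sw T ω) = ω := by
  unfold sw
  ext i <;> simp only <;> cases T i <;> simp

lemma measurable_sw (T : E → Bool) : Measurable (sw T) := by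
  refine Measurable.prodMk (measurable_pi_iff.2 fun i => ?_) (measurable_pi_iff.2 fun i => ?_) <;>
    cases T i <;> simp <;> fun_prop

/-- `sw T` as a measurable equivalence. -/
def swEquiv (T : E → Bool) : Ω E ≃ᵐ Ω E where
  toFun := sw T
  invFun := sw T
  left_inv := sw_sw T
  right_inv := sw_sw T
  measurable_toFun := measurable_sw T
  measurable_invFun := measurable_sw T

section law

variable (D : E → Measure ℝ) [∀ e, IsProbabilityMeasure (D e)]

instance : IsProbabilityMeasure (jointLaw D) := by
  unfold jointLaw; infer_instance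

lemma measurePreserving_sw (T : E → Bool) : MeasurePreserving (sw T) (jointLaw D) (jointLaw D) := by
  unfold jointLaw
  have hA := measurePreserving_arrowProdEquivProdArrow ℝ ℝ E D D
  have hpi : MeasurePreserving
      (fun (p : E → ℝ × ℝ) i => (if T i then Prod.swap else id) (p i))
      (Measure.pi fun i => (D i).prod (D i)) (Measure.pi fun i => (D i).prod (D i)) := by
    refine measurePreserving_pi _ _ fun i => ?_
    cases T i
    · simpa using MeasurePreserving.id _
    · simpa using Measure.measurePreserving_swap
  have h := (hA.comp hpi).comp (hA.symm _)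
  convert h using 1
  funext ω
  simp only [Function.comp_apply, MeasurableEquiv.arrowProdEquivProdArrow, sw]
  ext i <;> cases hT : T i <;>
    simp [hT, Equiv.arrowProdEquivProdArrow, MeasurableEquiv.symm]

lemma integral_sw (T : E → Bool) (f : Ω E → ℝ) :
    ∫ ω, f (sw T ω) ∂jointLaw D = ∫ ω, f ω ∂jointLaw D :=
  (measurePreserving_sw D T).integral_comp (swEquiv T).measurableEmbedding f

lemma integrable_sw (T : E → Bool) {f : Ω E → ℝ} (hf : Integrable f (jointLaw D)) :
    Integrable (fun ω => f (sw T ω)) (jointLaw D) :=
  ((measurePreserving_sw D T).integrable_comp hf.aestronglyMeasurable).2 hf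

lemma ae_nonneg_law (hD : ∀ e, D e (Set.Iio 0) = 0) :
    ∀ᵐ ω ∂jointLaw D, ∀ e, 0 ≤ ω.1 e ∧ 0 ≤ ω.2 e := by
  rw [ae_all_iff]
  intro e
  have h0 : ∀ᵐ x ∂D e, 0 ≤ x := by
    rw [ae_iff]
    simp only [not_le]
    exact hD e
  have h1 : MeasurePreserving (fun ω : Ω E => ω.1 e) (jointLaw D) (D e) :=
    (measurePreserving_eval D e).comp measurePreserving_fst
  have h2 : MeasurePreserving (fun ω : Ω E => ω.2 e) (jointLaw D) (D e) :=
    (measurePreserving_eval D e).comp measurePreserving_snd
  exact (h1.quasiMeasurePreserving.ae h0).and (h2.quasiMeasurePreserving.ae h0)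

end law

lemma measurable_opt (M : Matroid E) : Measurable (opt M) := by
  classical
  have h : Measurable ((univ.filter fun I : Finset E => M.Indep (I : Set E)).sup'
      ⟨∅, by simp⟩ fun (I : Finset E) (v : E → ℝ) => ∑ e ∈ I, v e) :=
    Finset.measurable_sup' _ fun I _ => by fun_prop
  convert h using 1
  funext v
  exact (Finset.sup'_apply _ (fun (I : Finset E) (v : E → ℝ) => ∑ e ∈ I, v e) v).symm

lemma measurable_mx (M : Matroid E) : Measurable (mx M) := by
  classical
  have h : Measurable ((univ : Finset (Option E)).sup' univ_nonempty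
      fun (o : Option E) (S : E → ℝ) => o.elim 0 fun e => if M.IsNonloop e then S e else 0) := by
    refine Finset.measurable_sup' _ fun o _ => ?_
    cases o with
    | none => simp
    | some e => by_cases he : M.IsNonloop e <;> simp [he] <;> fun_prop
  convert h using 1
  funext v
  exact (Finset.sup'_apply univ_nonempty
    (fun (o : Option E) (S : E → ℝ) => o.elim 0 fun e => if M.IsNonloop e then S e else 0) v).symm

/-- Level data of a vector. -/
noncomputable def lvls (v : E → ℝ) : E → Lv := fun e => lvl (v e)

lemma measurable_lvls : Measurable (lvls (E := E)) :=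
  measurable_pi_iff.2 fun e => measurable_lvl.comp (measurable_pi_apply e)

/-- Level data of samples and values. -/
noncomputable def lvData (ω : Ω E) : (E → Lv) × (E → Lv) := (lvls ω.1, lvls ω.2)

lemma measurable_lvData : Measurable (lvData (E := E)) :=
  (measurable_lvls.comp measurable_fst).prodMk (measurable_lvls.comp measurable_snd)

lemma measurableSet_lvData (P : (E → Lv) × (E → Lv) → Prop) :
    MeasurableSet {ω : Ω E | P (lvData ω)} :=
  measurable_lvData (MeasurableSet.of_discrete (s := {d | P d}))

/-- Comparisons of the weights of all sets. -/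
noncomputable def cmpData (v : E → ℝ) : Finset E → Finset E → Bool :=
  fun J J' => decide (∑ e ∈ J, v e ≤ ∑ e ∈ J', v e)

open Classical in
/-- A maximum weight independent set from the comparisons. -/
noncomputable def bestSet (M : Matroid E) (c : Finset E → Finset E → Bool) : Finset E :=
  if h : ∃ J : Finset E, M.Indep (J : Set E) ∧ ∀ J' : Finset E, M.Indep (J' : Set E) → c J' J = true
  then h.choose else ∅

lemma bestSet_spec (M : Matroid E) (v : E → ℝ) :
    M.Indep (bestSet M (cmpData v) : Set E) ∧ ∑ e ∈ bestSet M (cmpData v), v e = opt M v := by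
  obtain ⟨I, hI, hsum⟩ := exists_opt M v
  have h : ∃ J : Finset E, M.Indep (J : Set E) ∧
      ∀ J' : Finset E, M.Indep (J' : Set E) → cmpData v J' J = true :=
    ⟨I, hI, fun J' hJ' => decide_eq_true (hsum.symm ▸ sum_le_opt hJ')⟩
  rw [bestSet, dif_pos h]
  refine ⟨h.choose_spec.1, le_antisymm (sum_le_opt h.choose_spec.1) ?_⟩
  rw [← hsum]
  exact of_decide_eq_true (h.choose_spec.2 I hI)

lemma measurableSet_bestSet (M : Matroid E) (e : E) :
    MeasurableSet {ω : Ω E | e ∈ bestSet M (cmpData ω.2)} := by
  have hm : Measurable fun ω : Ω E => cmpData ω.2 := by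
    refine measurable_pi_iff.2 fun J => measurable_pi_iff.2 fun J' => ?_
    refine measurable_to_countable' fun b => ?_
    have hs : MeasurableSet {ω : Ω E | ∑ e ∈ J, ω.2 e ≤ ∑ e ∈ J', ω.2 e} :=
      measurableSet_le (by fun_prop) (by fun_prop)
    cases b
    · convert hs.compl using 1; ext ω; simp [cmpData]
    · convert hs using 1; ext ω; simp [cmpData]
  exact hm (MeasurableSet.of_discrete (s := {c | e ∈ bestSet M c}))

lemma measurable_qualify (M : Matroid E) (b : Bool) :
    Measurable fun ω : Ω E => fun e => encS M b ω.1 (ω.2 e) := by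
  refine measurable_pi_iff.2 fun e => measurable_to_countable' fun c => ?_
  have h1 : MeasurableSet {ω : Ω E | mx M ω.1 < ω.2 e} :=
    measurableSet_lt ((measurable_mx M).comp measurable_fst) (by fun_prop)
  have h2 : MeasurableSet {ω : Ω E | mx M ω.1 ≤ ω.2 e} :=
    measurableSet_le ((measurable_mx M).comp measurable_fst) (by fun_prop)
  cases b <;> cases c
  · convert h2.compl using 1; ext ω; simp [encS]
  · convert h2 using 1; ext ω; simp [encS]
  · convert h1.compl using 1; ext ω; simp [encS]
  · convert h1 using 1; ext ω; simp [encS]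

end Vale.Agent.P331
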